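import Vale.Agent.P050.H180.Odd2

set_option linter.all false

/-!
Logarithmic inequalities for a symmetric nonnegative kernel and its stationary law.
-/

namespace Vale.Agent.P050.H125

open Finset

section abs

variable {Z : Type*} [Fintype Z] [DecidableEq Z]

/-- degree -/
def dg (L : Z → Z → ℝ) (a : Z) : ℝ := ∑ b, L a b

/-- the kernel divided by the root of the degree -/
noncomputable def kk (L : Z → Z → ℝ) (a b : Z) : ℝ := L a b / Real.sqrt (dg L a)

/-- its powers -/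
noncomputable def kp (L : Z → Z → ℝ) : ℕ → Z → Z → ℝ
  | 0 => fun a b => if a = b then 1 else 0
  | m + 1 => fun a b => ∑ c, kp L m a c * kk L c b

variable {L : Z → Z → ℝ}

theorem dg_nonneg (h0 : ∀ a b, 0 ≤ L a b) (a : Z) : 0 ≤ dg L a := sum_nonneg fun b _ => h0 a b

theorem kk_nonneg (h0 : ∀ a b, 0 ≤ L a b) (a b : Z) : 0 ≤ kk L a b :=
  div_nonneg (h0 a b) (Real.sqrt_nonneg _)

theorem kp_nonneg (h0 : ∀ a b, 0 ≤ L a b) (m : ℕ) (a b : Z) : 0 ≤ kp L m a b := by
  induction m generalizing b with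
  | zero => simp only [kp]; split_ifs <;> norm_num
  | succ m ih => exact sum_nonneg fun c _ => mul_nonneg (ih c) (kk_nonneg h0 _ _)

theorem kp_apply (m : ℕ) (a : Z) (φ : Z → ℝ) :
    ∑ b, kp L (m + 1) a b * φ b = ∑ c, kp L m a c * ∑ b, kk L c b * φ b := by
  simp only [kp, sum_mul, mul_sum]
  rw [sum_comm]
  exact sum_congr rfl fun c _ => sum_congr rfl fun b _ => by ring

/-- weighted logarithms: `∑ w log φ ≤ (∑ w) log (∑ w φ / ∑ w)` -/
theorem wlog {T : Type*} (s : Finset T) (w φ : T → ℝ) (hw : ∀ i ∈ s, 0 ≤ w i)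
    (hφ : ∀ i ∈ s, 0 < φ i) (hpos : 0 < ∑ i ∈ s, w i) :
    ∑ i ∈ s, w i * Real.log (φ i) ≤
      (∑ i ∈ s, w i) * Real.log ((∑ i ∈ s, w i * φ i) / ∑ i ∈ s, w i) := by
  set D := ∑ i ∈ s, w i with hD
  have h := (strictConcaveOn_log_Ioi.concaveOn).le_map_sum (t := s) (w := fun i => w i / D)
    (p := φ) (fun i hi => div_nonneg (hw i hi) hpos.le) (by rw [← sum_div, div_self hpos.ne'])
    (fun i hi => hφ i hi)
  simp only [smul_eq_mul] at h
  have e1 : ∑ i ∈ s, w i / D * Real.log (φ i) = (∑ i ∈ s, w i * Real.log (φ i)) / D := by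
    rw [sum_div]; exact sum_congr rfl fun i _ => by ring
  have e2 : ∑ i ∈ s, w i / D * φ i = (∑ i ∈ s, w i * φ i) / D := by
    rw [sum_div]; exact sum_congr rfl fun i _ => by ring
  rw [e1, e2, div_le_iff₀ hpos] at h
  linarith

variable {S : Finset Z}

structure Good (L : Z → Z → ℝ) (S : Finset Z) : Prop where
  nn : ∀ a b, 0 ≤ L a b
  symm : ∀ a b, L a b = L b a
  off : ∀ a b, a ∉ S → L a b = 0
  diag : ∀ a ∈ S, 0 < L a a

theorem Good.dpos (h : Good L S) {a : Z} (ha : a ∈ S) : 0 < dg L a :=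
  lt_of_lt_of_le (h.diag a ha) (single_le_sum (f := fun b => L a b) (fun b _ => h.nn a b)
    (mem_univ a))

theorem Good.dzero (h : Good L S) {a : Z} (ha : a ∉ S) : dg L a = 0 :=
  sum_eq_zero fun b _ => h.off a b ha

theorem Good.row (h : Good L S) (a : Z) (φ : Z → ℝ) : ∑ b, L a b * φ b = ∑ b ∈ S, L a b * φ b := by
  refine (sum_subset (subset_univ S) fun b _ hb => ?_).symm
  rw [h.symm, h.off b a hb, zero_mul]

theorem Good.dsum (h : Good L S) (φ : Z → ℝ) : ∑ a, dg L a * φ a = ∑ a ∈ S, dg L a * φ a := by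
  refine (sum_subset (subset_univ S) fun b _ hb => ?_).symm
  rw [h.dzero hb, zero_mul]

theorem Good.drow (h : Good L S) (a : Z) : dg L a = ∑ b ∈ S, L a b := by
  have := h.row a (fun _ => 1)
  simp only [mul_one] at this
  exact this

/-- stationarity -/
theorem Good.stat (h : Good L S) (φ : Z → ℝ) :
    ∑ a ∈ S, ∑ b ∈ S, L a b * φ b = ∑ b ∈ S, dg L b * φ b := by
  rw [sum_comm]
  refine sum_congr rfl fun b _ => ?_
  rw [← sum_mul, h.drow]
  congr 1
  exact sum_congr rfl fun a _ => h.symm _ _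

/-- one step -/
theorem Good.step (h : Good L S) {φ : Z → ℝ} (hφ : ∀ a ∈ S, 0 < φ a) :
    (1 / 2) * ∑ a ∈ S, dg L a * Real.log (dg L a) + ∑ a ∈ S, dg L a * Real.log (φ a) ≤
      ∑ a ∈ S, dg L a * Real.log (∑ b, kk L a b * φ b) := by
  rw [← h.stat (fun b => Real.log (φ b)), mul_sum, ← sum_add_distrib]
  refine sum_le_sum fun a ha => ?_
  have hd := h.dpos ha
  have h1 := wlog S (fun b => L a b) φ (fun b _ => h.nn a b) hφ (by rw [← h.drow]; exact hd)
  rw [← h.drow, ← h.row a φ] at h1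
  have hpos : 0 < ∑ b, L a b * φ b := by
    rw [h.row]
    refine lt_of_lt_of_le (mul_pos (h.diag a ha) (hφ a ha))
      (single_le_sum (f := fun b => L a b * φ b) (fun b hb => mul_nonneg (h.nn a b) (hφ b hb).le) ha)
  have h2 : ∑ b, kk L a b * φ b = Real.sqrt (dg L a) * ((∑ b, L a b * φ b) / dg L a) := by
    unfold kk
    rw [sum_div, mul_sum]
    refine sum_congr rfl fun b _ => ?_
    have hs : Real.sqrt (dg L a) ≠ 0 := (Real.sqrt_pos.2 hd).ne'
    have hs2 := Real.mul_self_sqrt hd.le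
    rw [div_mul_eq_mul_div, div_eq_iff hs]
    have : Real.sqrt (dg L a) * (L a b * φ b / dg L a) * Real.sqrt (dg L a) =
        (Real.sqrt (dg L a) * Real.sqrt (dg L a)) * (L a b * φ b / dg L a) := by ring
    rw [this, hs2, mul_div_cancel₀ _ hd.ne']
  rw [h2, Real.log_mul (Real.sqrt_pos.2 hd).ne' (div_pos hpos hd).ne', Real.log_sqrt hd.le]
  linarith

theorem Good.kpos (h : Good L S) {φ : Z → ℝ} (hφ : ∀ a ∈ S, 0 < φ a) {a : Z} (ha : a ∈ S) :
    0 < ∑ b, kk L a b * φ b := by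
  have e : ∑ b, kk L a b * φ b = (∑ b, L a b * φ b) / Real.sqrt (dg L a) := by
    unfold kk; rw [sum_div]; exact sum_congr rfl fun b _ => by ring
  rw [e, h.row]
  exact div_pos (lt_of_lt_of_le (mul_pos (h.diag a ha) (hφ a ha))
      (single_le_sum (f := fun b => L a b * φ b)
        (fun b hb => mul_nonneg (h.nn a b) (hφ b hb).le) ha)) (Real.sqrt_pos.2 (h.dpos ha))

/-- many steps -/
theorem Good.steps (h : Good L S) (m : ℕ) {φ : Z → ℝ} (hφ : ∀ a ∈ S, 0 < φ a) :
    (m / 2 : ℝ) * ∑ a ∈ S, dg L a * Real.log (dg L a) + ∑ a ∈ S, dg L a * Real.log (φ a) ≤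
      ∑ a ∈ S, dg L a * Real.log (∑ b, kp L m a b * φ b) := by
  induction m generalizing φ with
  | zero => simp [kp]
  | succ m ih =>
    have h1 := ih (φ := fun c => ∑ b, kk L c b * φ b) (fun a ha => h.kpos hφ ha)
    have h2 := h.step hφ
    simp only [kp_apply]
    push_cast
    linarith

theorem Good.pos_kp (h : Good L S) (m : ℕ) {φ : Z → ℝ} (hφ : ∀ a ∈ S, 0 < φ a) {a : Z}
    (ha : a ∈ S) : 0 < ∑ b, kp L m a b * φ b := by
  induction m generalizing φ with
  | zero => simp [kp, hφ a ha]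
  | succ m ih =>
    rw [kp_apply]
    exact ih (φ := fun c => ∑ b, kk L c b * φ b) (fun a ha => h.kpos hφ ha)

/-- the entropy of the stationary law is at most the logarithm of the number of points -/
theorem Good.ent (h : Good L S) (hS : S.Nonempty) :
    (∑ a ∈ S, dg L a) * Real.log ((∑ a ∈ S, dg L a) / S.card) ≤
      ∑ a ∈ S, dg L a * Real.log (dg L a) := by
  set H := ∑ a ∈ S, dg L a with hH
  have hH0 : 0 < H := sum_pos (fun a ha => h.dpos ha) hS
  have hc : (0 : ℝ) < S.card := by exact_mod_cast hS.card_pos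
  have h1 : ∀ a ∈ S, dg L a * Real.log (H / S.card) + (dg L a - H / S.card) ≤
      dg L a * Real.log (dg L a) := by
    intro a ha
    have hd := h.dpos ha
    have hx : 0 < dg L a / (H / S.card) := div_pos hd (div_pos hH0 hc)
    have h2 := Real.one_sub_inv_le_log_of_pos hx
    rw [Real.log_div hd.ne' (div_pos hH0 hc).ne', inv_div] at h2
    have h3 := mul_le_mul_of_nonneg_left h2 hd.le
    have h4 : dg L a * (1 - H / S.card / dg L a) = dg L a - H / S.card := by
      field_simp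
    rw [h4] at h3
    linarith
  have h2 := sum_le_sum h1
  rw [sum_add_distrib, ← sum_mul, sum_sub_distrib, sum_const, nsmul_eq_mul, ← hH,
    mul_div_cancel₀ _ hc.ne', sub_self, add_zero] at h2
  exact h2

/-- the variational principle -/
theorem Good.gibbs (h : Good L S) (hS : S.Nonempty) {a : Z → ℝ} (ha : ∀ z ∈ S, 0 < a z) :
    4 * ∑ z ∈ S, dg L z * Real.log (a z) - ∑ z ∈ S, dg L z * Real.log (dg L z) +
      (∑ z ∈ S, dg L z) * Real.log (∑ z ∈ S, dg L z) ≤
      (∑ z ∈ S, dg L z) * Real.log (∑ z ∈ S, a z ^ 4) := by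
  set H := ∑ z ∈ S, dg L z with hH
  have hH0 : 0 < H := sum_pos (fun a ha => h.dpos ha) hS
  have h1 := wlog S (fun z => dg L z) (fun z => a z ^ 4 / dg L z) (fun z _ => dg_nonneg h.nn z)
    (fun z hz => div_pos (pow_pos (ha z hz) 4) (h.dpos hz)) (by rw [← hH]; exact hH0)
  have e1 : ∑ z ∈ S, dg L z * (a z ^ 4 / dg L z) = ∑ z ∈ S, a z ^ 4 :=
    sum_congr rfl fun z hz => by rw [mul_div_cancel₀ _ (h.dpos hz).ne']
  have e2 : ∑ z ∈ S, dg L z * Real.log (a z ^ 4 / dg L z) =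
      4 * ∑ z ∈ S, dg L z * Real.log (a z) - ∑ z ∈ S, dg L z * Real.log (dg L z) := by
    rw [mul_sum, ← sum_sub_distrib]
    refine sum_congr rfl fun z hz => ?_
    rw [Real.log_div (pow_pos (ha z hz) 4).ne' (h.dpos hz).ne', Real.log_pow]
    push_cast
    ring
  rw [e1, e2, ← hH] at h1
  have hp : 0 < ∑ z ∈ S, a z ^ 4 := sum_pos (fun z hz => pow_pos (ha z hz) 4) hS
  rw [Real.log_div hp.ne' hH0.ne'] at h1
  linarith

end abs

end Vale.Agent.P050.H125
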