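import Vale.Agent.P050.H125.Rich1

set_option linter.all false

/-!
The ladder kernel of a graph: a lower bound for a fourth moment.
-/

namespace Vale.Agent.P050.H125

open Finset Vale.Agent.P050.H148 Vale.Agent.P050.H180

theorem wlog' {T : Type*} [Fintype T] (w φ : T → ℝ) (hw : ∀ i, 0 ≤ w i)
    (hφ : ∀ i, w i ≠ 0 → 0 < φ i) (hpos : 0 < ∑ i, w i) :
    ∑ i, w i * Real.log (φ i) ≤ (∑ i, w i) * Real.log ((∑ i, w i * φ i) / ∑ i, w i) := by
  classical
  have f : ∀ g : T → ℝ, ∑ i, w i * g i = ∑ i ∈ univ.filter (fun i => w i ≠ 0), w i * g i := by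
    intro g
    refine (sum_subset (subset_univ _) fun i _ hi => ?_).symm
    have : w i = 0 := by simpa using hi
    rw [this, zero_mul]
  have f1 : ∑ i, w i = ∑ i ∈ univ.filter (fun i => w i ≠ 0), w i := by
    have := f (fun _ => 1)
    simpa only [mul_one] using this
  have h := wlog (univ.filter fun i => w i ≠ 0) w φ (fun i _ => hw i)
    (fun i hi => hφ i (mem_filter.1 hi).2) (by rw [← f1]; exact hpos)
  rw [← f1, ← f, ← f] at h
  exact h

section ker

variable {X : Type*} [Fintype X] [DecidableEq X] {W : X → X → ℝ}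

/-- codegree -/
def cod (W : X → X → ℝ) (x x' : X) : ℝ := ∑ y, W x y * W x' y

/-- the edges -/
noncomputable def edg (W : X → X → ℝ) : Finset (X × X) := by
  classical exact univ.filter fun a => W a.1 a.2 = 1

/-- four-cycles at a vertex -/
noncomputable def dY (W : X → X → ℝ) (y : X) : ℝ := ∑ x, dg (lad W) (x, y)

theorem mem_edg {a : X × X} : a ∈ edg W ↔ W a.1 a.2 = 1 := by
  unfold edg; simp

theorem lad01 (hW : ∀ x y, W x y = 0 ∨ W x y = 1) (a b : X × X) :
    lad W a b = W a.1 a.2 * W b.1 b.2 * (W a.1 b.2 * W b.1 a.2) := by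
  unfold lad
  have h : ∀ x y, Real.sqrt (W x y) = W x y := by
    intro x y
    rcases hW x y with h | h <;> rw [h] <;> simp
  rw [h, h]

theorem nn01 (hW : ∀ x y, W x y = 0 ∨ W x y = 1) (x y : X) : 0 ≤ W x y := by
  rcases hW x y with h | h <;> rw [h] <;> norm_num

theorem le01 (hW : ∀ x y, W x y = 0 ∨ W x y = 1) (x y : X) : W x y ≤ 1 := by
  rcases hW x y with h | h <;> rw [h] <;> norm_num

theorem lad_nn (hW : ∀ x y, W x y = 0 ∨ W x y = 1) (a b : X × X) : 0 ≤ lad W a b := by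
  rw [lad01 hW]
  have := nn01 hW
  exact mul_nonneg (mul_nonneg (this _ _) (this _ _)) (mul_nonneg (this _ _) (this _ _))

theorem good (hW : ∀ x y, W x y = 0 ∨ W x y = 1) : Good (lad W) (edg W) where
  nn := lad_nn hW
  symm := lad_symm W
  off a b ha := by
    rw [mem_edg] at ha
    rcases hW a.1 a.2 with h | h
    · rw [lad01 hW, h]; ring
    · exact absurd h ha
  diag a ha := by
    rw [mem_edg] at ha
    rw [lad01 hW, ha]; norm_num

/-- facts about an opposite pair -/
theorem lad_ne (hW : ∀ x y, W x y = 0 ∨ W x y = 1) {a b : X × X} (h : lad W a b ≠ 0) :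
    W a.1 a.2 = 1 ∧ W b.1 b.2 = 1 ∧ W a.1 b.2 = 1 ∧ W b.1 a.2 = 1 := by
  rw [lad01 hW] at h
  rcases hW a.1 a.2 with h1 | h1
  · rw [h1] at h; exact absurd (by ring) h
  rcases hW b.1 b.2 with h2 | h2
  · rw [h2] at h; exact absurd (by ring) h
  rcases hW a.1 b.2 with h3 | h3
  · rw [h3] at h; exact absurd (by ring) h
  rcases hW b.1 a.2 with h4 | h4
  · rw [h4] at h; exact absurd (by ring) h
  exact ⟨h1, h2, h3, h4⟩

theorem cod_nonneg (hW : ∀ x y, W x y = 0 ∨ W x y = 1) (x x' : X) : 0 ≤ cod W x x' :=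
  sum_nonneg fun y _ => mul_nonneg (nn01 hW _ _) (nn01 hW _ _)

theorem cod_pos (hW : ∀ x y, W x y = 0 ∨ W x y = 1) {a b : X × X} (h : lad W a b ≠ 0) :
    0 < cod W a.1 b.1 := by
  obtain ⟨h1, h2, h3, h4⟩ := lad_ne hW h
  refine lt_of_lt_of_le (by rw [h3, h2]; norm_num : 0 < W a.1 b.2 * W b.1 b.2)
    (single_le_sum (f := fun y => W a.1 y * W b.1 y)
      (fun y _ => mul_nonneg (nn01 hW _ _) (nn01 hW _ _)) (mem_univ b.2))

theorem dY_nonneg (hW : ∀ x y, W x y = 0 ∨ W x y = 1) (y : X) : 0 ≤ dY W y :=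
  sum_nonneg fun x _ => dg_nonneg (lad_nn hW) _

theorem dY_pos (hW : ∀ x y, W x y = 0 ∨ W x y = 1) {b : X × X} (h : W b.1 b.2 = 1) :
    0 < dY W b.2 :=
  lt_of_lt_of_le ((good hW).dpos (a := (b.1, b.2)) (mem_edg.2 h))
    (single_le_sum (f := fun x => dg (lad W) (x, b.2))
      (fun x _ => dg_nonneg (lad_nn hW) _) (mem_univ b.1))

/-- the total number of four-cycles -/
noncomputable def tot (W : X → X → ℝ) : ℝ := ∑ a, dg (lad W) a

theorem tot_S (hW : ∀ x y, W x y = 0 ∨ W x y = 1) : tot W = ∑ a ∈ edg W, dg (lad W) a := by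
  have := (good hW).dsum (fun _ => 1)
  simp only [mul_one] at this
  exact this

theorem tot_Y : tot W = ∑ y, dY W y := by
  unfold tot dY
  rw [Fintype.sum_prod_type, sum_comm]

/-- entropy sum -/
noncomputable def ens (W : X → X → ℝ) : ℝ := ∑ a, dg (lad W) a * Real.log (dg (lad W) a)

theorem ens_S (hW : ∀ x y, W x y = 0 ∨ W x y = 1) :
    ens W = ∑ a ∈ edg W, dg (lad W) a * Real.log (dg (lad W) a) := (good hW).dsum _

theorem sum_row (hW : ∀ x y, W x y = 0 ∨ W x y = 1) (x0 x1 y1 : X) :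
    ∑ y0, lad W (x0, y0) (x1, y1) = W x0 y1 * W x1 y1 * cod W x0 x1 := by
  unfold cod
  rw [mul_sum]
  refine sum_congr rfl fun y0 _ => ?_
  rw [lad01 hW]
  ring

/-- the last step of the chain -/
theorem last (hW : ∀ x y, W x y = 0 ∨ W x y = 1) :
    2 * ens W ≤ ∑ u, ∑ z, lad W u z * (Real.log (cod W u.1 z.1) + Real.log (dY W z.2)) := by
  have hD := dg_nonneg (lad_nn hW)
  have key : ∀ u z : X × X, lad W u z - lad W u z * (dg (lad W) (u.1, z.2) * dg (lad W) z /
      (cod W u.1 z.1 * dY W z.2)) ≤ lad W u z * (Real.log (cod W u.1 z.1) + Real.log (dY W z.2)) -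
      lad W u z * Real.log (dg (lad W) (u.1, z.2)) - lad W u z * Real.log (dg (lad W) z) := by
    intro u z
    by_cases h0 : lad W u z = 0
    · rw [h0]; simp
    obtain ⟨h1, h2, h3, h4⟩ := lad_ne hW h0
    have p1 := cod_pos hW h0
    have p2 := dY_pos hW h2
    have p3 : 0 < dg (lad W) (u.1, z.2) := (good hW).dpos (mem_edg.2 h3)
    have p4 : 0 < dg (lad W) z := (good hW).dpos (mem_edg.2 h2)
    have hx : 0 < cod W u.1 z.1 * dY W z.2 / (dg (lad W) (u.1, z.2) * dg (lad W) z) := by positivity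
    have h5 := Real.one_sub_inv_le_log_of_pos hx
    rw [inv_div, Real.log_div (by positivity) (by positivity), Real.log_mul p1.ne' p2.ne',
      Real.log_mul p3.ne' p4.ne'] at h5
    have h6 := mul_le_mul_of_nonneg_left h5 (lad_nn hW u z)
    linarith
  have hsum := sum_le_sum fun u (_ : u ∈ univ) => sum_le_sum fun z (_ : z ∈ univ) => key u z
  simp only [sum_sub_distrib] at hsum
  have e1 : ∑ u, ∑ z, lad W u z = tot W := rfl
  have e2 : ∑ u, ∑ z, lad W u z * Real.log (dg (lad W) z) = ens W := by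
    rw [sum_comm]
    unfold ens
    refine sum_congr rfl fun z _ => ?_
    rw [← sum_mul]
    congr 1
    exact sum_congr rfl fun u _ => lad_symm W _ _
  have e3 : ∑ u, ∑ z, lad W u z * Real.log (dg (lad W) (u.1, z.2)) = ens W := by
    unfold ens
    rw [Fintype.sum_prod_type, Fintype.sum_prod_type]
    refine sum_congr rfl fun x0 _ => ?_
    have : ∀ y0, ∑ z : X × X, lad W (x0, y0) z * Real.log (dg (lad W) (x0, z.2)) =
        ∑ x1, ∑ y1, lad W (x0, y1) (x1, y0) * Real.log (dg (lad W) (x0, y1)) := by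
      intro y0
      rw [Fintype.sum_prod_type]
      refine sum_congr rfl fun x1 _ => sum_congr rfl fun y1 _ => ?_
      rw [lad01 hW, lad01 hW]
      ring
    simp only [this]
    rw [sum_comm]
    have h7 : ∀ x1 : X, ∑ y0, ∑ y1, lad W (x0, y1) (x1, y0) * Real.log (dg (lad W) (x0, y1)) =
        ∑ y1, (∑ y0, lad W (x0, y1) (x1, y0)) * Real.log (dg (lad W) (x0, y1)) := by
      intro x1
      rw [sum_comm]
      exact sum_congr rfl fun y1 _ => by rw [sum_mul]
    simp only [h7]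
    rw [sum_comm]
    refine sum_congr rfl fun y1 _ => ?_
    rw [← sum_mul]
    congr 1
    unfold dg
    rw [Fintype.sum_prod_type]
  have e4 : ∑ u : X × X, ∑ z : X × X, lad W u z * (dg (lad W) (u.1, z.2) * dg (lad W) z /
      (cod W u.1 z.1 * dY W z.2)) ≤ tot W := by
    have a1 : ∑ u : X × X, ∑ z : X × X, lad W u z * (dg (lad W) (u.1, z.2) * dg (lad W) z /
        (cod W u.1 z.1 * dY W z.2)) = ∑ x0, ∑ x1, ∑ y1, (∑ y0, lad W (x0, y0) (x1, y1)) *
          (dg (lad W) (x0, y1) * dg (lad W) (x1, y1) / (cod W x0 x1 * dY W y1)) := by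
      rw [Fintype.sum_prod_type]
      refine sum_congr rfl fun x0 _ => ?_
      simp only [Fintype.sum_prod_type]
      rw [sum_comm]
      refine sum_congr rfl fun x1 _ => ?_
      rw [sum_comm]
      refine sum_congr rfl fun y1 _ => ?_
      rw [sum_mul]
    rw [a1]
    have a2 : ∀ x0 x1 y1, (∑ y0, lad W (x0, y0) (x1, y1)) *
          (dg (lad W) (x0, y1) * dg (lad W) (x1, y1) / (cod W x0 x1 * dY W y1)) ≤
        dg (lad W) (x0, y1) * dg (lad W) (x1, y1) / dY W y1 := by
      intro x0 x1 y1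
      rw [sum_row hW]
      have b0 : 0 ≤ dg (lad W) (x0, y1) * dg (lad W) (x1, y1) / dY W y1 :=
        div_nonneg (mul_nonneg (hD _) (hD _)) (dY_nonneg hW _)
      by_cases hc : cod W x0 x1 = 0
      · rw [hc]; simpa using b0
      have b1 : W x0 y1 * W x1 y1 * cod W x0 x1 *
          (dg (lad W) (x0, y1) * dg (lad W) (x1, y1) / (cod W x0 x1 * dY W y1)) =
          W x0 y1 * W x1 y1 * (dg (lad W) (x0, y1) * dg (lad W) (x1, y1) / dY W y1) := by
        rw [mul_assoc, ← mul_div_assoc, mul_div_mul_left _ _ hc]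
      rw [b1]
      have b2 : W x0 y1 * W x1 y1 ≤ 1 := mul_le_one₀ (le01 hW _ _) (nn01 hW _ _) (le01 hW _ _)
      exact mul_le_of_le_one_left b0 b2
    refine (sum_le_sum fun x0 _ => sum_le_sum fun x1 _ => sum_le_sum fun y1 _ => a2 x0 x1 y1).trans ?_
    have a3 : ∑ x0, ∑ x1, ∑ y1, dg (lad W) (x0, y1) * dg (lad W) (x1, y1) / dY W y1 =
        ∑ y1, dY W y1 * dY W y1 / dY W y1 := by
      have : ∀ y1, dY W y1 * dY W y1 / dY W y1 =
          ∑ x0, ∑ x1, dg (lad W) (x0, y1) * dg (lad W) (x1, y1) / dY W y1 := by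
        intro y1
        have : dY W y1 * dY W y1 = ∑ x0, ∑ x1, dg (lad W) (x0, y1) * dg (lad W) (x1, y1) := by
          conv_lhs => unfold dY
          rw [sum_mul_sum]
        rw [this, sum_div]
        exact sum_congr rfl fun x0 _ => by rw [sum_div]
      simp only [this]
      rw [sum_comm (s := univ (α := X)) (t := univ (α := X))
        (f := fun y1 x0 => ∑ x1, dg (lad W) (x0, y1) * dg (lad W) (x1, y1) / dY W y1)]
      refine sum_congr rfl fun x0 _ => ?_
      rw [sum_comm]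
    rw [a3, tot_Y]
    refine sum_le_sum fun y1 _ => ?_
    by_cases hz : dY W y1 = 0
    · rw [hz]; simp
    · rw [mul_div_cancel_right₀ _ hz]
  rw [e1, e2, e3] at hsum
  linarith

end ker

end Vale.Agent.P050.H125
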