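import Vale.Agent.P050.H125.Rich2

set_option linter.all false

/-!
The ladder kernel of a graph: the fourth moment.
-/

namespace Vale.Agent.P050.H125

open Finset Vale.Agent.P050.H148 Vale.Agent.P050.H180

section ker

variable {X : Type*} [Fintype X] [DecidableEq X] {W : X → X → ℝ}

/-- the last factor -/
noncomputable def ps (W : X → X → ℝ) (u z : X × X) : ℝ :=
  Real.sqrt (cod W u.1 z.1) * Real.sqrt (dY W z.2 / tot W)

/-- the last step -/
noncomputable def ze (W : X → X → ℝ) (u : X × X) : ℝ := ∑ z, kk (lad W) u z * ps W u z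

theorem tot_pos (hW : ∀ x y, W x y = 0 ∨ W x y = 1) (hS : (edg W).Nonempty) : 0 < tot W := by
  rw [tot_S hW]
  exact sum_pos (fun a ha => (good hW).dpos ha) hS

theorem ps_pos (hW : ∀ x y, W x y = 0 ∨ W x y = 1) (hS : (edg W).Nonempty) {u z : X × X}
    (h : lad W u z ≠ 0) : 0 < ps W u z :=
  mul_pos (Real.sqrt_pos.2 (cod_pos hW h)) (Real.sqrt_pos.2 (div_pos (dY_pos hW (lad_ne hW h).2.1)
    (tot_pos hW hS)))

theorem ps_log (hW : ∀ x y, W x y = 0 ∨ W x y = 1) (hS : (edg W).Nonempty) (u z : X × X) :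
    lad W u z * Real.log (ps W u z) = (1 / 2) * (lad W u z * (Real.log (cod W u.1 z.1) +
      Real.log (dY W z.2))) - (1 / 2) * (lad W u z * Real.log (tot W)) := by
  by_cases h : lad W u z = 0
  · rw [h]; ring
  have p1 := cod_pos hW h
  have p2 := dY_pos hW (lad_ne hW h).2.1
  have p3 := tot_pos hW hS
  unfold ps
  rw [Real.log_mul (Real.sqrt_pos.2 p1).ne' (Real.sqrt_pos.2 (div_pos p2 p3)).ne',
    Real.log_sqrt p1.le, Real.log_sqrt (div_pos p2 p3).le, Real.log_div p2.ne' p3.ne']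
  ring

theorem ze_eq (hW : ∀ x y, W x y = 0 ∨ W x y = 1) {u : X × X} (hu : u ∈ edg W) :
    ze W u = Real.sqrt (dg (lad W) u) * ((∑ z, lad W u z * ps W u z) / dg (lad W) u) := by
  have hd := (good hW).dpos hu
  unfold ze kk
  rw [sum_div, mul_sum]
  refine sum_congr rfl fun b _ => ?_
  have hs : Real.sqrt (dg (lad W) u) ≠ 0 := (Real.sqrt_pos.2 hd).ne'
  have hs2 := Real.mul_self_sqrt hd.le
  rw [div_mul_eq_mul_div, div_eq_iff hs]
  have : Real.sqrt (dg (lad W) u) * (lad W u b * ps W u b / dg (lad W) u) *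
      Real.sqrt (dg (lad W) u) = (Real.sqrt (dg (lad W) u) * Real.sqrt (dg (lad W) u)) *
        (lad W u b * ps W u b / dg (lad W) u) := by ring
  rw [this, hs2, mul_div_cancel₀ _ hd.ne']

theorem sum_ps_pos (hW : ∀ x y, W x y = 0 ∨ W x y = 1) {u : X × X} (hu : u ∈ edg W) :
    0 < ∑ z, lad W u z * ps W u z := by
  have hne : lad W u u ≠ 0 := ((good hW).diag u hu).ne'
  refine lt_of_lt_of_le (mul_pos ((good hW).diag u hu) (ps_pos hW ⟨u, hu⟩ hne))
    (single_le_sum (f := fun z => lad W u z * ps W u z) (fun z _ => mul_nonneg (lad_nn hW _ _)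
      (mul_nonneg (Real.sqrt_nonneg _) (Real.sqrt_nonneg _))) (mem_univ u))

theorem ze_pos (hW : ∀ x y, W x y = 0 ∨ W x y = 1) {u : X × X} (hu : u ∈ edg W) : 0 < ze W u := by
  rw [ze_eq hW hu]
  exact mul_pos (Real.sqrt_pos.2 ((good hW).dpos hu)) (div_pos (sum_ps_pos hW hu)
    ((good hW).dpos hu))

theorem ze_log (hW : ∀ x y, W x y = 0 ∨ W x y = 1) {u : X × X} (hu : u ∈ edg W) :
    (1 / 2) * (dg (lad W) u * Real.log (dg (lad W) u)) + ∑ z, lad W u z * Real.log (ps W u z) ≤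
      dg (lad W) u * Real.log (ze W u) := by
  have hd := (good hW).dpos hu
  have h1 := wlog' (fun z => lad W u z) (fun z => ps W u z) (fun z => lad_nn hW u z)
    (fun z hz => ps_pos hW ⟨u, hu⟩ hz) hd
  have e : ∑ i, lad W u i = dg (lad W) u := rfl
  rw [e] at h1
  rw [ze_eq hW hu, Real.log_mul (Real.sqrt_pos.2 hd).ne' (div_pos (sum_ps_pos hW hu) hd).ne',
    Real.log_sqrt hd.le]
  linarith

theorem ze_sum (hW : ∀ x y, W x y = 0 ∨ W x y = 1) (hS : (edg W).Nonempty) :
    (3 / 2) * ens W - (1 / 2) * (tot W * Real.log (tot W)) ≤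
      ∑ u ∈ edg W, dg (lad W) u * Real.log (ze W u) := by
  have h1 := sum_le_sum fun u (hu : u ∈ edg W) => ze_log hW hu
  rw [sum_add_distrib, ← mul_sum, ← ens_S hW] at h1
  have e1 : ∑ u ∈ edg W, ∑ z, lad W u z * Real.log (ps W u z) =
      ∑ u, ∑ z, lad W u z * Real.log (ps W u z) := by
    refine sum_subset (subset_univ _) fun u _ hu => sum_eq_zero fun z _ => ?_
    rw [(good hW).off u z hu, zero_mul]
  rw [e1] at h1
  simp only [ps_log hW hS, sum_sub_distrib, ← mul_sum] at h1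
  have h2 := last hW
  have e2 : ∑ u, (1 / 2) * ∑ z, lad W u z * (Real.log (cod W u.1 z.1) + Real.log (dY W z.2)) =
      (1 / 2) * ∑ u, ∑ z, lad W u z * (Real.log (cod W u.1 z.1) + Real.log (dY W z.2)) := by
    rw [mul_sum]
  have e3 : ∑ u, ∑ z, lad W u z * Real.log (tot W) = tot W * Real.log (tot W) := by
    unfold tot dg
    simp only [sum_mul]
  rw [e3] at h1
  linarith

theorem moment (hW : ∀ x y, W x y = 0 ∨ W x y = 1) (hS : (edg W).Nonempty) (m : ℕ) :
    tot W ^ (2 * m + 4) ≤ ((edg W).card : ℝ) ^ (2 * m + 5) *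
      ∑ a ∈ edg W, (∑ b, kp (lad W) m a b * ze W b) ^ 4 := by
  have hz : ∀ a ∈ edg W, 0 < ze W a := fun a ha => ze_pos hW ha
  have hH := tot_pos hW hS
  have hc : (0 : ℝ) < (edg W).card := by exact_mod_cast hS.card_pos
  have h1 := (good hW).steps m hz
  have h2 := (good hW).gibbs hS (a := fun a => ∑ b, kp (lad W) m a b * ze W b)
    (fun a ha => (good hW).pos_kp m hz ha)
  have h3 := (good hW).ent hS
  have h4 := ze_sum hW hS
  rw [← tot_S hW, ← ens_S hW] at h2 h3
  rw [← ens_S hW] at h1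
  set M := ∑ a ∈ edg W, (∑ b, kp (lad W) m a b * ze W b) ^ 4 with hM
  have hMp : 0 < M := sum_pos (fun a ha => pow_pos ((good hW).pos_kp m hz ha) 4) hS
  set H := tot W with hHd
  set c : ℝ := ((edg W).card : ℝ) with hcd
  have h5 : H * ((2 * m + 5) * Real.log (H / c)) ≤ H * (Real.log M + Real.log H) := by
    have h6 : (2 * (m : ℝ) + 5) * (H * Real.log (H / c)) ≤ (2 * (m : ℝ) + 5) * ens W :=
      mul_le_mul_of_nonneg_left h3 (by positivity)
    nlinarith [h1, h2, h4, h6]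
  have h6 := le_of_mul_le_mul_left h5 hH
  have h7 : Real.log ((H / c) ^ (2 * m + 5)) ≤ Real.log (M * H) := by
    rw [Real.log_pow, Real.log_mul hMp.ne' hH.ne']
    push_cast
    exact h6
  have h8 : (H / c) ^ (2 * m + 5) ≤ M * H :=
    (Real.log_le_log_iff (by positivity) (by positivity)).1 h7
  rw [div_pow, div_le_iff₀ (by positivity)] at h8
  have e : H ^ (2 * m + 5) = H ^ (2 * m + 4) * H := by rw [← pow_succ]
  rw [e] at h8
  have h9 : H ^ (2 * m + 4) * H ≤ (c ^ (2 * m + 5) * M) * H := by linarith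
  exact le_of_mul_le_mul_right h9 hH

end ker

end Vale.Agent.P050.H125
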