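import Vale.Agent.P050.H125.Rich3

set_option linter.all false

/-!
The ladder kernel of a graph: closed walks of odd length.
-/

namespace Vale.Agent.P050.H125

open Finset Vale.Agent.P050.H148 Vale.Agent.P050.H180

section four

variable {X : Type*} [Fintype X]

/-- four-cycles in a kernel, with test functions -/
theorem s4 (s : X → X → ℝ) (f g : X → ℝ) :
    (∑ x, ∑ y, s x y * (f x * g y)) ^ 4 ≤ (∑ x, f x ^ 2) ^ 2 * (∑ y, g y ^ 2) ^ 2 *
      ∑ x, ∑ x', (∑ y, s x y * s x' y) ^ 2 := by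
  have h1 : (∑ x, ∑ y, s x y * (f x * g y)) ^ 2 ≤
      (∑ y, g y ^ 2) * ∑ y, (∑ x, s x y * f x) ^ 2 := by
    have e : ∑ x, ∑ y, s x y * (f x * g y) = ∑ y, g y * ∑ x, s x y * f x := by
      rw [sum_comm]
      refine sum_congr rfl fun y _ => ?_
      rw [mul_sum]
      exact sum_congr rfl fun x _ => by ring
    rw [e]
    exact sum_mul_sq_le_sq_mul_sq univ g fun y => ∑ x, s x y * f x
  have h2 : ∑ y, (∑ x, s x y * f x) ^ 2 =
      ∑ x, ∑ x', (f x * f x') * ∑ y, s x y * s x' y := by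
    have e1 : ∀ y, (∑ x, s x y * f x) ^ 2 = ∑ x, ∑ x', (s x y * f x) * (s x' y * f x') := by
      intro y
      rw [sq, sum_mul_sum]
    simp only [e1]
    rw [sum_comm]
    refine sum_congr rfl fun x _ => ?_
    rw [sum_comm]
    refine sum_congr rfl fun x' _ => ?_
    rw [mul_sum]
    exact sum_congr rfl fun y _ => by ring
  have h3 : (∑ x, ∑ x', (f x * f x') * ∑ y, s x y * s x' y) ^ 2 ≤
      (∑ x, f x ^ 2) ^ 2 * ∑ x, ∑ x', (∑ y, s x y * s x' y) ^ 2 := by
    have h4 := sum_mul_sq_le_sq_mul_sq (univ : Finset (X × X)) (fun a => f a.1 * f a.2)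
      fun a => ∑ y, s a.1 y * s a.2 y
    simp only [Fintype.sum_prod_type] at h4
    have e : ∑ x, ∑ x', (f x * f x') ^ 2 = (∑ x, f x ^ 2) ^ 2 := by
      rw [sq (∑ x, f x ^ 2), sum_mul_sum]
      exact sum_congr rfl fun x _ => sum_congr rfl fun x' _ => by ring
    rw [e] at h4
    exact h4
  have hg : 0 ≤ ∑ y, g y ^ 2 := sum_nonneg fun y _ => sq_nonneg _
  have hB : 0 ≤ ∑ y, (∑ x, s x y * f x) ^ 2 := sum_nonneg fun y _ => sq_nonneg _
  calc (∑ x, ∑ y, s x y * (f x * g y)) ^ 4 = ((∑ x, ∑ y, s x y * (f x * g y)) ^ 2) ^ 2 := by ring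
    _ ≤ ((∑ y, g y ^ 2) * ∑ y, (∑ x, s x y * f x) ^ 2) ^ 2 :=
        pow_le_pow_left₀ (sq_nonneg _) h1 2
    _ = (∑ y, g y ^ 2) ^ 2 * (∑ x, ∑ x', (f x * f x') * ∑ y, s x y * s x' y) ^ 2 := by
        rw [mul_pow, h2]
    _ ≤ (∑ y, g y ^ 2) ^ 2 * ((∑ x, f x ^ 2) ^ 2 * ∑ x, ∑ x', (∑ y, s x y * s x' y) ^ 2) :=
        mul_le_mul_of_nonneg_left h3 (sq_nonneg _)
    _ = _ := by ring

end four

section ker

variable {X : Type*} [Fintype X] [DecidableEq X] {W : X → X → ℝ}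

/-- the flip -/
theorem flip (hW : ∀ x y, W x y = 0 ∨ W x y = 1) (h : X × X → ℝ) (hh : ∀ a, 0 ≤ h a)
    (hs : ∀ a : X × X, W a.1 a.2 = 0 → h a = 0) :
    ∑ x, ∑ x', (∑ y, Real.sqrt (h (x, y)) * Real.sqrt (h (x', y))) ^ 2 ≤
      ∑ a, ∑ b, h a * lad W a b * h b := by
  have e : ∑ a, ∑ b, h a * lad W a b * h b = ∑ x, ∑ x', (∑ y, h (x, y) * (W x y * W x' y)) *
      ∑ y, h (x', y) * (W x' y * W x y) := by
    rw [Fintype.sum_prod_type]
    refine sum_congr rfl fun x _ => ?_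
    simp only [Fintype.sum_prod_type]
    rw [sum_comm]
    refine sum_congr rfl fun x' _ => ?_
    rw [sum_mul_sum]
    refine sum_congr rfl fun y _ => sum_congr rfl fun y' _ => ?_
    rw [lad01 hW]
    ring
  rw [e]
  refine sum_le_sum fun x _ => sum_le_sum fun x' _ => ?_
  refine sum_sq_le_sum_mul_sum_of_sq_le_mul _ (fun y _ => mul_nonneg (hh _)
    (mul_nonneg (nn01 hW _ _) (nn01 hW _ _))) (fun y _ => mul_nonneg (hh _)
    (mul_nonneg (nn01 hW _ _) (nn01 hW _ _))) fun y _ => ?_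
  rw [mul_pow, Real.sq_sqrt (hh _), Real.sq_sqrt (hh _)]
  rcases hW x y with h1 | h1
  · rw [hs (x, y) h1]; simp
  rcases hW x' y with h2 | h2
  · rw [hs (x', y) h2]; simp
  rw [h1, h2]
  exact le_of_eq (by ring)

/-- powers of the Markov kernel -/
noncomputable def mp (W : X → X → ℝ) : ℕ → X × X → X × X → ℝ
  | 0 => fun a b => if a = b then 1 else 0
  | m + 1 => fun a b => ∑ c, mp W m a c * (lad W c b / dg (lad W) c)

theorem mp_nonneg (hW : ∀ x y, W x y = 0 ∨ W x y = 1) (m : ℕ) (a b : X × X) : 0 ≤ mp W m a b := by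
  induction m generalizing b with
  | zero => simp only [mp]; split_ifs <;> norm_num
  | succ m ih => exact sum_nonneg fun c _ => mul_nonneg (ih c) (div_nonneg (lad_nn hW _ _)
      (dg_nonneg (lad_nn hW) _))

theorem div_self_le (x : ℝ) : x / x ≤ 1 := by
  by_cases h : x = 0
  · rw [h]; norm_num
  · rw [div_self h]

theorem mp_sum (hW : ∀ x y, W x y = 0 ∨ W x y = 1) (m : ℕ) (a : X × X) : ∑ b, mp W m a b ≤ 1 := by
  induction m with
  | zero => simp [mp]
  | succ m ih =>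
    simp only [mp]
    rw [sum_comm]
    refine le_trans (sum_le_sum fun c _ => ?_) ih
    rw [← mul_sum, ← sum_div]
    have : ∑ b, lad W c b = dg (lad W) c := rfl
    rw [this]
    exact mul_le_of_le_one_right (mp_nonneg hW m a c) (div_self_le _)

theorem kp_sq (hW : ∀ x y, W x y = 0 ∨ W x y = 1) (m : ℕ) (a b : X × X) :
    kp (lad W) m a b ^ 2 ≤ pw W m a b * mp W m a b := by
  induction m generalizing b with
  | zero => simp only [kp, pw, mp]; split_ifs <;> norm_num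
  | succ m ih =>
    simp only [kp, pw, mp]
    refine sum_sq_le_sum_mul_sum_of_sq_le_mul _ (fun c _ => mul_nonneg (pw_nonneg (nn01 hW) m a c)
      (lad_nn hW _ _)) (fun c _ => mul_nonneg (mp_nonneg hW m a c) (div_nonneg (lad_nn hW _ _)
      (dg_nonneg (lad_nn hW) _))) fun c _ => ?_
    unfold kk
    rw [mul_pow, div_pow, Real.sq_sqrt (dg_nonneg (lad_nn hW) _)]
    have h1 : 0 ≤ lad W c b ^ 2 / dg (lad W) c := div_nonneg (sq_nonneg _)
      (dg_nonneg (lad_nn hW) _)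
    calc kp (lad W) m a c ^ 2 * (lad W c b ^ 2 / dg (lad W) c) ≤
        pw W m a c * mp W m a c * (lad W c b ^ 2 / dg (lad W) c) :=
          mul_le_mul_of_nonneg_right (ih c) h1
      _ = _ := by ring

/-- the law of the first coordinate -/
noncomputable def mf (W : X → X → ℝ) (m : ℕ) (r : X × X) (x : X) : ℝ :=
  ∑ u, mp W m r u / dg (lad W) u * (W u.1 u.2 * W x u.2 * cod W u.1 x)

theorem dg_eq (hW : ∀ x y, W x y = 0 ∨ W x y = 1) (u : X × X) :
    ∑ x, W u.1 u.2 * W x u.2 * cod W u.1 x = dg (lad W) u := by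
  unfold dg cod
  rw [Fintype.sum_prod_type]
  refine sum_congr rfl fun x _ => ?_
  rw [mul_sum]
  refine sum_congr rfl fun y _ => ?_
  rw [lad01 hW]
  ring

theorem mf_nonneg (hW : ∀ x y, W x y = 0 ∨ W x y = 1) (m : ℕ) (r : X × X) (x : X) :
    0 ≤ mf W m r x :=
  sum_nonneg fun u _ => mul_nonneg (div_nonneg (mp_nonneg hW _ _ _) (dg_nonneg (lad_nn hW) _))
    (mul_nonneg (mul_nonneg (nn01 hW _ _) (nn01 hW _ _)) (cod_nonneg hW _ _))

theorem mf_sum (hW : ∀ x y, W x y = 0 ∨ W x y = 1) (m : ℕ) (r : X × X) :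
    ∑ x, mf W m r x ≤ 1 := by
  unfold mf
  rw [sum_comm]
  refine le_trans (sum_le_sum fun u _ => ?_) (mp_sum hW m r)
  rw [← mul_sum, dg_eq hW, div_mul_eq_mul_div, mul_div_assoc]
  exact mul_le_of_le_one_right (mp_nonneg hW _ _ _) (div_self_le _)

theorem point (hW : ∀ x y, W x y = 0 ∨ W x y = 1) (m : ℕ) (r z : X × X) :
    (∑ u, kp (lad W) m r u * (kk (lad W) u z * Real.sqrt (cod W u.1 z.1))) ^ 2 ≤
      pw W (m + 1) r z * mf W m r z.1 := by
  unfold mf
  simp only [pw]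
  refine sum_sq_le_sum_mul_sum_of_sq_le_mul _ (fun u _ => mul_nonneg (pw_nonneg (nn01 hW) m r u)
    (lad_nn hW _ _)) (fun u _ => mul_nonneg (div_nonneg (mp_nonneg hW _ _ _)
      (dg_nonneg (lad_nn hW) _)) (mul_nonneg (mul_nonneg (nn01 hW _ _) (nn01 hW _ _))
      (cod_nonneg hW _ _))) fun u _ => ?_
  unfold kk
  rw [mul_pow, mul_pow, div_pow, Real.sq_sqrt (dg_nonneg (lad_nn hW) _),
    Real.sq_sqrt (cod_nonneg hW _ _)]
  have hd := dg_nonneg (lad_nn hW) u
  have hc := cod_nonneg hW u.1 z.1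
  have hl := lad_nn hW u z
  have h1 : 0 ≤ lad W u z ^ 2 / dg (lad W) u * cod W u.1 z.1 :=
    mul_nonneg (div_nonneg (sq_nonneg _) hd) hc
  have h2 : lad W u z ≤ W u.1 u.2 * W z.1 u.2 := by
    rw [lad01 hW]
    have a1 : W z.1 z.2 * W u.1 z.2 ≤ 1 := mul_le_one₀ (le01 hW _ _) (nn01 hW _ _) (le01 hW _ _)
    calc W u.1 u.2 * W z.1 z.2 * (W u.1 z.2 * W z.1 u.2) =
        (W u.1 u.2 * W z.1 u.2) * (W z.1 z.2 * W u.1 z.2) := by ring
      _ ≤ (W u.1 u.2 * W z.1 u.2) * 1 := mul_le_mul_of_nonneg_left a1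
          (mul_nonneg (nn01 hW _ _) (nn01 hW _ _))
      _ = _ := mul_one _
  calc kp (lad W) m r u ^ 2 * (lad W u z ^ 2 / dg (lad W) u * cod W u.1 z.1) ≤
      pw W m r u * mp W m r u * (lad W u z ^ 2 / dg (lad W) u * cod W u.1 z.1) :=
        mul_le_mul_of_nonneg_right (kp_sq hW m r u) h1
    _ = (pw W m r u * lad W u z * (mp W m r u / dg (lad W) u) * cod W u.1 z.1) * lad W u z := by
        ring
    _ ≤ (pw W m r u * lad W u z * (mp W m r u / dg (lad W) u) * cod W u.1 z.1) *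
        (W u.1 u.2 * W z.1 u.2) := mul_le_mul_of_nonneg_left h2 (mul_nonneg (mul_nonneg
          (mul_nonneg (pw_nonneg (nn01 hW) m r u) hl) (div_nonneg (mp_nonneg hW _ _ _) hd)) hc)
    _ = _ := by ring

/-- the rooted inequality -/
theorem root4 (hW : ∀ x y, W x y = 0 ∨ W x y = 1) (hS : (edg W).Nonempty) (m : ℕ) (r : X × X) :
    (∑ u, kp (lad W) m r u * ze W u) ^ 4 ≤
      ∑ a, ∑ b, pw W (m + 1) r a * lad W a b * pw W (m + 1) r b := by
  set h : X × X → ℝ := pw W (m + 1) r with hh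
  have h0 : ∀ a, 0 ≤ h a := fun a => pw_nonneg (nn01 hW) _ _ _
  have hs : ∀ a : X × X, W a.1 a.2 = 0 → h a = 0 := by
    intro a ha
    simp only [hh, pw]
    refine sum_eq_zero fun c _ => ?_
    rw [lad01 hW, ha]; ring
  have hH := tot_pos hW hS
  have e1 : ∑ u, kp (lad W) m r u * ze W u = ∑ z : X × X, Real.sqrt (dY W z.2 / tot W) *
      ∑ u, kp (lad W) m r u * (kk (lad W) u z * Real.sqrt (cod W u.1 z.1)) := by
    unfold ze ps
    simp only [mul_sum]
    rw [sum_comm]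
    exact sum_congr rfl fun z _ => sum_congr rfl fun u _ => by ring
  have e2 : ∑ u, kp (lad W) m r u * ze W u ≤ ∑ x, ∑ y, Real.sqrt (h (x, y)) *
      (Real.sqrt (mf W m r x) * Real.sqrt (dY W y / tot W)) := by
    rw [e1, Fintype.sum_prod_type]
    refine sum_le_sum fun x _ => sum_le_sum fun y _ => ?_
    have e3 : ∑ u, kp (lad W) m r u * (kk (lad W) u (x, y) * Real.sqrt (cod W u.1 x)) ≤
        Real.sqrt (h (x, y)) * Real.sqrt (mf W m r x) := by
      rw [← Real.sqrt_mul (h0 _)]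
      exact Real.le_sqrt_of_sq_le (point hW m r (x, y))
    calc _ ≤ Real.sqrt (dY W y / tot W) * (Real.sqrt (h (x, y)) * Real.sqrt (mf W m r x)) :=
          mul_le_mul_of_nonneg_left e3 (Real.sqrt_nonneg _)
      _ = _ := by ring
  have e4 : 0 ≤ ∑ u, kp (lad W) m r u * ze W u := by
    refine sum_nonneg fun u _ => mul_nonneg (kp_nonneg (lad_nn hW) _ _ _) ?_
    exact sum_nonneg fun z _ => mul_nonneg (kk_nonneg (lad_nn hW) _ _)
      (mul_nonneg (Real.sqrt_nonneg _) (Real.sqrt_nonneg _))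
  have e5 := s4 (fun x y => Real.sqrt (h (x, y))) (fun x => Real.sqrt (mf W m r x))
    (fun y => Real.sqrt (dY W y / tot W))
  have e6 : ∑ x, Real.sqrt (mf W m r x) ^ 2 ≤ 1 := by
    simp only [Real.sq_sqrt (mf_nonneg hW m r _)]
    exact mf_sum hW m r
  have e7 : ∑ y, Real.sqrt (dY W y / tot W) ^ 2 = 1 := by
    have : ∀ y, Real.sqrt (dY W y / tot W) ^ 2 = dY W y / tot W := fun y =>
      Real.sq_sqrt (div_nonneg (dY_nonneg hW y) hH.le)
    simp only [this]
    rw [← sum_div, ← tot_Y, div_self hH.ne']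
  have e8 : 0 ≤ ∑ x, Real.sqrt (mf W m r x) ^ 2 := sum_nonneg fun x _ => sq_nonneg _
  have e9 : (0 : ℝ) ≤ ∑ x, ∑ x', (∑ y, Real.sqrt (h (x, y)) * Real.sqrt (h (x', y))) ^ 2 :=
    sum_nonneg fun x _ => sum_nonneg fun x' _ => sq_nonneg _
  refine (pow_le_pow_left₀ e4 e2 4).trans (e5.trans ?_)
  rw [e7, one_pow, mul_one]
  refine le_trans ?_ (flip hW h h0 hs)
  exact mul_le_of_le_one_left e9 (pow_le_one₀ e8 e6)

/-- four-cycles and closed walks of odd length -/
theorem rich_sum (hW : ∀ x y, W x y = 0 ∨ W x y = 1) (m : ℕ) [NeZero (2 * m + 3)] :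
    tot W ^ (2 * m + 4) ≤ ((edg W).card : ℝ) ^ (2 * m + 5) * ladSum W (2 * m + 3) := by
  obtain ⟨l, f, hL⟩ := exists_eig (lad W) (lad_symm W)
  have hQ : ∀ r : X × X, ∑ a, ∑ b, pw W (m + 1) r a * lad W a b * pw W (m + 1) r b =
      ∑ i, l i ^ (2 * m + 3) * f i r ^ 2 := by
    intro r
    rw [hL.quad]
    refine sum_congr rfl fun i _ => ?_
    rw [pw_coef hL]
    ring
  have hT : ∑ r : X × X, ∑ a, ∑ b, pw W (m + 1) r a * lad W a b * pw W (m + 1) r b =
      ladSum W (2 * m + 3) := by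
    simp only [hQ]
    rw [ladSum_eq (nn01 hW) hL, sum_comm]
    refine sum_congr rfl fun i _ => ?_
    rw [← mul_sum]
    have := hL.orth i i
    simp only [if_true, ← sq] at this
    rw [this, mul_one]
  have hnn : ∀ r : X × X, 0 ≤ ∑ a, ∑ b, pw W (m + 1) r a * lad W a b * pw W (m + 1) r b :=
    fun r => sum_nonneg fun a _ => sum_nonneg fun b _ => mul_nonneg (mul_nonneg
      (pw_nonneg (nn01 hW) _ _ _) (lad_nn hW _ _)) (pw_nonneg (nn01 hW) _ _ _)
  rcases (edg W).eq_empty_or_nonempty with hS | hS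
  · have e1 : tot W = 0 := by rw [tot_S hW, hS, sum_empty]
    rw [e1, zero_pow (by omega), ← hT]
    exact mul_nonneg (by positivity) (sum_nonneg fun r _ => hnn r)
  · refine (moment hW hS m).trans (mul_le_mul_of_nonneg_left ?_ (by positivity))
    rw [← hT]
    refine (sum_le_sum fun r _ => root4 hW hS m r).trans ?_
    exact sum_le_sum_of_subset_of_nonneg (subset_univ _) fun r _ _ => hnn r

end ker

end Vale.Agent.P050.H125
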