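import Vale.Agent.P050.H125.Rich4
import Vale.Agent.P050.H180.Graph2

set_option linter.all false

/-!
Four-cycles and Moebius ladders in graphs.
-/

namespace Vale.Agent.P050.H125

open Finset Vale.Agent.P050.H148 Vale.Agent.P050.H180

section graph

variable {X : Type*} [Fintype X]

theorem adj01 (G : SimpleGraph X) (x y : X) : adj G x y = 0 ∨ adj G x y = 1 := by
  simp only [adj]; split_ifs <;> simp

theorem tot_graph (G : SimpleGraph X) [Nonempty X] [DecidableEq X] :
    tot (adj G) = homDensity (SimpleGraph.cycleGraph 4) G * (Fintype.card X : ℝ) ^ 4 := by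
  rw [four_density]
  unfold tot dg
  refine sum_congr rfl fun a _ => ?_
  rw [← ww_row]
  refine sum_congr rfl fun b _ => ?_
  rw [lad01 (adj01 G)]
  unfold ww
  ring

theorem card_graph (G : SimpleGraph X) [Nonempty X] [DecidableEq X] :
    ((edg (adj G)).card : ℝ) = edgeDensity G * (Fintype.card X : ℝ) ^ 2 := by
  have hn0 : (0 : ℝ) < Fintype.card X := by exact_mod_cast Fintype.card_pos
  have hp := adj_sum G
  have hp' : ∑ x, ∑ y, adj G x y = edgeDensity G * (Fintype.card X : ℝ) ^ 2 := by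
    rw [← hp]; field_simp
  rw [← hp', ← Fintype.sum_prod_type' (f := fun x y => adj G x y), card_eq_sum_ones]
  push_cast
  unfold edg
  rw [sum_filter]
  refine sum_congr rfl fun a _ => ?_
  rcases adj01 G a.1 a.2 with h | h <;> rw [h] <;> simp

/-- **Four-cycles and Moebius ladders.** -/
theorem four_ladder (G : SimpleGraph X) [Nonempty X] (k : ℕ) (hk : Odd k) (hk3 : 3 ≤ k) :
    homDensity (SimpleGraph.cycleGraph 4) G ^ (k + 1) ≤
      edgeDensity G ^ (k + 2) * homDensity (moebiusLadder k) G := by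
  classical
  obtain ⟨j, rfl⟩ := hk
  obtain ⟨m, rfl⟩ : ∃ m, j = m + 1 := ⟨j - 1, by omega⟩
  have e0 : 2 * (m + 1) + 1 = 2 * m + 3 := by ring
  rw [e0]
  haveI : NeZero (2 * m + 3) := ⟨by omega⟩
  have hn0 : (0 : ℝ) < Fintype.card X := by exact_mod_cast Fintype.card_pos
  have key := rich_sum (adj01 G) m
  rw [tot_graph, card_graph] at key
  rw [hom_ladder]
  unfold ladderDensity
  rw [← ladSum_two]
  set n : ℝ := (Fintype.card X : ℝ) with hndef
  set T : ℝ := homDensity (SimpleGraph.cycleGraph 4) G with hT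
  set p : ℝ := edgeDensity G with hpd
  have e1 : (T * n ^ 4) ^ (2 * m + 4) = T ^ (2 * m + 3 + 1) * n ^ (8 * m + 16) := by
    rw [mul_pow, ← pow_mul]; congr 2; ring
  have e2 : (p * n ^ 2) ^ (2 * m + 5) * ladSum (adj G) (2 * m + 3) =
      p ^ (2 * m + 3 + 2) * (ladSum (adj G) (2 * m + 3) / n ^ (2 * (2 * m + 3))) *
        n ^ (8 * m + 16) := by
    have e3 : n ^ (8 * m + 16) = n ^ (2 * (2 * m + 3)) * n ^ (2 * (2 * m + 5)) := by
      rw [← pow_add]; congr 1; ring
    rw [e3, mul_pow, ← pow_mul]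
    field_simp
  rw [e1, e2] at key
  exact le_of_mul_le_mul_right key (by positivity)

end graph

end Vale.Agent.P050.H125
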