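import Vale.Agent.P050.H180.Ent3

set_option linter.all false

/-!
The law of two opposite vertices after a step of the chain of opposite edges; concavity.
-/

namespace Vale.Agent.P050.H125

open Finset Vale.Agent.P050.H148 Vale.Agent.P050.H180

section sharp

variable {X : Type*} [Fintype X]

/-- the law of the next pair of opposite vertices, an edge having the law `q` -/
noncomputable def lawB (W : X → X → ℝ) (q : X × X → ℝ) (c : X × X) : ℝ :=
  cod W c.1 c.2 * ∑ y, q (c.1, y) * W c.2 y / rr W (c.1, y)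

/-- the difference of two entropies -/
noncomputable def Dq (W : X → X → ℝ) (q : X × X → ℝ) : ℝ :=
  ∑ c, lawB W q c * Real.log (lawB W q c) - ∑ a, q a * Real.log (q a)

variable [Nonempty X] [DecidableEq X] {W : X → X → ℝ}

theorem lawB_pos (hW : ∀ x y, 0 < W x y) {q : X × X → ℝ} (hq : ∀ a, 0 < q a) (c : X × X) :
    0 < lawB W q c :=
  mul_pos (cod_pos hW _ _) (sum_pos (fun y _ => div_pos (mul_pos (hq _) (hW _ _)) (rr_pos hW _))
    univ_nonempty)

/-- averages over the law of the next pair -/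
theorem lawB_avg (hW : ∀ x y, 0 < W x y) (q : X × X → ℝ) (h : X → X → ℝ) :
    ∑ x, ∑ x', ∑ y, cod W x x' * (q (x, y) * W x' y / rr W (x, y)) * h x y =
      ∑ a : X × X, q a * h a.1 a.2 := by
  rw [Fintype.sum_prod_type]
  refine sum_congr rfl fun x _ => ?_
  rw [sum_comm]
  refine sum_congr rfl fun y _ => ?_
  calc ∑ x', cod W x x' * (q (x, y) * W x' y / rr W (x, y)) * h x y =
        ∑ x', q (x, y) * h x y / rr W (x, y) * (W x' y * cod W x x') :=
        sum_congr rfl fun x' _ => by ring
    _ = q (x, y) * h x y / rr W (x, y) * ∑ x', W x' y * cod W x x' := by rw [mul_sum]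
    _ = q (x, y) * h x y := by
        have e1 := cod_rr W (x, y)
        simp only at e1
        rw [e1, div_mul_cancel₀ _ (rr_pos hW _).ne']

theorem lawB_sum (hW : ∀ x y, 0 < W x y) (q : X × X → ℝ) :
    ∑ c, lawB W q c = ∑ a, q a := by
  have e1 := lawB_avg hW q (fun _ _ => 1)
  simp only [mul_one] at e1
  rw [← e1, Fintype.sum_prod_type]
  unfold lawB
  exact sum_congr rfl fun x _ => sum_congr rfl fun x' _ => by rw [mul_sum]

/-- averages of functions of the first vertex -/
theorem lawB_fst (hW : ∀ x y, 0 < W x y) (q : X × X → ℝ) (h : X → ℝ) :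
    ∑ c, lawB W q c * h c.1 = ∑ a, q a * h a.1 := by
  have e1 := lawB_avg hW q (fun x _ => h x)
  rw [← e1, Fintype.sum_prod_type]
  unfold lawB
  refine sum_congr rfl fun x _ => sum_congr rfl fun x' _ => ?_
  rw [mul_sum, sum_mul]

theorem Dq_eq (hW : ∀ x y, 0 < W x y) (q : X × X → ℝ) :
    Dq W q = -∑ x, ∑ x', ∑ y, cod W x x' * (q (x, y) * W x' y / rr W (x, y)) *
      (Real.log (q (x, y)) - Real.log (lawB W q (x, x'))) := by
  have e1 := lawB_avg hW q (fun x y => Real.log (q (x, y)))
  have e2 : ∑ x, ∑ x', ∑ y, cod W x x' * (q (x, y) * W x' y / rr W (x, y)) *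
      (Real.log (q (x, y)) - Real.log (lawB W q (x, x'))) =
      ∑ x, ∑ x', ∑ y, cod W x x' * (q (x, y) * W x' y / rr W (x, y)) * Real.log (q (x, y)) -
      ∑ c, lawB W q c * Real.log (lawB W q c) := by
    rw [Fintype.sum_prod_type (f := fun c : X × X => lawB W q c * Real.log (lawB W q c)),
      ← sum_sub_distrib]
    refine sum_congr rfl fun x _ => ?_
    rw [← sum_sub_distrib]
    refine sum_congr rfl fun x' _ => ?_
    have e3 : lawB W q (x, x') * Real.log (lawB W q (x, x')) =
        ∑ y, cod W x x' * (q (x, y) * W x' y / rr W (x, y)) * Real.log (lawB W q (x, x')) := by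
      rw [← sum_mul, ← mul_sum]
      rfl
    rw [e3, ← sum_sub_distrib]
    exact sum_congr rfl fun y _ => by ring
  rw [e2, e1]
  unfold Dq
  simp only [Prod.mk.eta]
  ring

theorem lawB_mix {ι : Type*} [Fintype ι] (l : ι → ℝ) (q : ι → X × X → ℝ) (c : X × X) :
    lawB W (fun a => ∑ i, l i * q i a) c = ∑ i, l i * lawB W (q i) c := by
  unfold lawB
  calc cod W c.1 c.2 * ∑ y, (∑ i, l i * q i (c.1, y)) * W c.2 y / rr W (c.1, y) =
        cod W c.1 c.2 * ∑ y, ∑ i, l i * (q i (c.1, y) * W c.2 y / rr W (c.1, y)) := by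
        congr 1
        refine sum_congr rfl fun y _ => ?_
        rw [sum_mul, sum_div]
        exact sum_congr rfl fun i _ => by ring
    _ = cod W c.1 c.2 * ∑ i, l i * ∑ y, (q i (c.1, y) * W c.2 y / rr W (c.1, y)) := by
        rw [sum_comm]
        simp only [mul_sum]
    _ = _ := by
        rw [mul_sum]
        exact sum_congr rfl fun i _ => by ring

/-- concavity -/
theorem Dq_conc {ι : Type*} [Fintype ι] [Nonempty ι] (hW : ∀ x y, 0 < W x y) (l : ι → ℝ)
    (hl : ∀ i, 0 < l i) (q : ι → X × X → ℝ) (hq : ∀ i a, 0 < q i a) :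
    ∑ i, l i * Dq W (q i) ≤ Dq W (fun a => ∑ i, l i * q i a) := by
  set qs : X × X → ℝ := fun a => ∑ i, l i * q i a with hqs
  rw [Dq_eq hW qs]
  have e1 : ∀ x x' y, qs (x, y) * (Real.log (qs (x, y)) - Real.log (lawB W qs (x, x'))) ≤
      ∑ i, l i * (q i (x, y) * (Real.log (q i (x, y)) - Real.log (lawB W (q i) (x, x')))) := by
    intro x x' y
    have e2 := logsum (fun i => l i * q i (x, y)) (fun i => l i * lawB W (q i) (x, x'))
      (fun i => mul_pos (hl i) (hq i _)) (fun i => mul_pos (hl i) (lawB_pos hW (hq i) _))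
    rw [← lawB_mix] at e2
    refine e2.trans (le_of_eq ?_)
    refine sum_congr rfl fun i _ => ?_
    rw [Real.log_mul (hl i).ne' (hq i _).ne', Real.log_mul (hl i).ne' (lawB_pos hW (hq i) _).ne']
    ring
  have e3 : ∑ i, l i * Dq W (q i) = -∑ x, ∑ x', ∑ y, cod W x x' * (W x' y / rr W (x, y)) *
      ∑ i, l i * (q i (x, y) * (Real.log (q i (x, y)) - Real.log (lawB W (q i) (x, x')))) := by
    simp only [Dq_eq hW (q _), mul_neg, sum_neg_distrib]
    congr 1
    calc ∑ i, l i * ∑ x, ∑ x', ∑ y, cod W x x' * (q i (x, y) * W x' y / rr W (x, y)) *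
          (Real.log (q i (x, y)) - Real.log (lawB W (q i) (x, x'))) =
          ∑ i, ∑ x, ∑ x', ∑ y, cod W x x' * (W x' y / rr W (x, y)) *
          (l i * (q i (x, y) * (Real.log (q i (x, y)) - Real.log (lawB W (q i) (x, x'))))) := by
          refine sum_congr rfl fun i _ => ?_
          rw [mul_sum]
          refine sum_congr rfl fun x _ => ?_
          rw [mul_sum]
          refine sum_congr rfl fun x' _ => ?_
          rw [mul_sum]
          exact sum_congr rfl fun y _ => by ring
      _ = _ := by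
          rw [sum_comm]
          refine sum_congr rfl fun x _ => ?_
          rw [sum_comm]
          refine sum_congr rfl fun x' _ => ?_
          rw [sum_comm]
          refine sum_congr rfl fun y _ => ?_
          rw [mul_sum]
  rw [e3]
  refine neg_le_neg ?_
  refine sum_le_sum fun x _ => sum_le_sum fun x' _ => sum_le_sum fun y _ => ?_
  have e4 := mul_le_mul_of_nonneg_left (e1 x x' y)
    (mul_pos (cod_pos hW x x') (div_pos (hW x' y) (rr_pos hW (x, y)))).le
  refine le_trans (le_of_eq ?_) e4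
  ring

/-- the mean of `Dq` -/
noncomputable def avD (W : X → X → ℝ) (M : ℕ) : ℝ :=
  ∑ e, rho W e * Dq W (kp (qq W) M e)



theorem avD_mono (hW : ∀ x y, 0 < W x y) (M : ℕ) : avD W M ≤ avD W (M + 1) := by
  have e1 : ∀ e, ∑ c, qq W e c * Dq W (kp (qq W) M c) ≤ Dq W (kp (qq W) (M + 1) e) := by
    intro e
    have e2 := Dq_conc hW (fun c => qq W e c) (fun c => qq_pos hW e c) (fun c => kp (qq W) M c)
      (fun c a => kp_pos (qq_pos hW) M c a)
    refine e2.trans (le_of_eq ?_)
    congr 1
    funext a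
    rw [kp_left]
  have e3 := sum_le_sum fun e (_ : e ∈ univ) => mul_le_mul_of_nonneg_left (e1 e) (rho_pos hW e).le
  refine le_trans (le_of_eq ?_) e3
  simp only [mul_sum]
  rw [sum_comm]
  unfold avD
  refine sum_congr rfl fun c _ => ?_
  rw [← qq_stat hW c, sum_mul]
  exact sum_congr rfl fun e _ => by ring

theorem avD_ge (hW : ∀ x y, 0 < W x y) (M : ℕ) : avD W 1 ≤ avD W (M + 1) := by
  induction M with
  | zero => exact le_refl _
  | succ M ih => exact ih.trans (avD_mono hW (M + 1))

end sharp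

end Vale.Agent.P050.H125
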