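import Vale.Agent.P050.H125.Sharp1

set_option linter.all false

/-!
The law of two edges at distance two of the chain, with a vertex between them.
-/

namespace Vale.Agent.P050.H125

open Finset Vale.Agent.P050.H148 Vale.Agent.P050.H180

section sharp

variable {X : Type*} [Fintype X] [Nonempty X] [DecidableEq X] {W : X → X → ℝ}

/-- a weighted number of common neighbours of three vertices -/
noncomputable def tau (W : X → X → ℝ) (x0 x1 x2 : X) : ℝ :=
  ∑ y, W x0 y * W x1 y * W x2 y / rr W (x1, y)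

theorem tau_pos (hW : ∀ x y, 0 < W x y) (x0 x1 x2 : X) : 0 < tau W x0 x1 x2 :=
  sum_pos (fun y _ => div_pos (mul_pos (mul_pos (hW _ _) (hW _ _)) (hW _ _)) (rr_pos hW _))
    univ_nonempty

theorem rr_swap (hs : ∀ x y, W x y = W y x) (x y : X) : rr W (y, x) = rr W (x, y) := by
  unfold rr
  rw [sum_comm]
  refine sum_congr rfl fun x' _ => sum_congr rfl fun y' _ => ?_
  simp only
  rw [hs y x', hs y' x', hs y' x]
  ring

/-- the law of the first edge, a vertex of the second and the third edge -/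
noncomputable def p5 (W : X → X → ℝ) (a : X × X) (y : X) (c : X × X) : ℝ :=
  ∑ x, rho W a * qq W a (x, y) * qq W (x, y) c

theorem p5_pos (hW : ∀ x y, 0 < W x y) (a : X × X) (y : X) (c : X × X) : 0 < p5 W a y c :=
  sum_pos (fun x _ => mul_pos (mul_pos (rho_pos hW _) (qq_pos hW _ _)) (qq_pos hW _ _))
    univ_nonempty

theorem p5_left (hW : ∀ x y, 0 < W x y) (F : X × X → X → ℝ) :
    ∑ a, ∑ y, ∑ c, p5 W a y c * F a y = ∑ a, ∑ b, rho W a * qq W a b * F a b.2 := by
  refine sum_congr rfl fun a _ => ?_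
  rw [Fintype.sum_prod_type_right]
  refine sum_congr rfl fun y _ => ?_
  unfold p5
  calc ∑ c, (∑ x, rho W a * qq W a (x, y) * qq W (x, y) c) * F a y =
        ∑ c, ∑ x, rho W a * qq W a (x, y) * F a y * qq W (x, y) c := by
        refine sum_congr rfl fun c _ => ?_
        rw [sum_mul]
        exact sum_congr rfl fun x _ => by ring
    _ = ∑ x, rho W a * qq W a (x, y) * F a y * ∑ c, qq W (x, y) c := by
        rw [sum_comm]
        exact sum_congr rfl fun x _ => by rw [mul_sum]
    _ = _ := by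
        refine sum_congr rfl fun x _ => ?_
        rw [qq_sum hW, mul_one]

theorem p5_right (hW : ∀ x y, 0 < W x y) (F : X → X × X → ℝ) :
    ∑ a, ∑ y, ∑ c, p5 W a y c * F y c = ∑ b, ∑ c, rho W b * qq W b c * F b.2 c := by
  have e1 : ∑ a, ∑ y, ∑ c, p5 W a y c * F y c =
      ∑ y, ∑ c, ∑ x, (∑ a, rho W a * qq W a (x, y)) * qq W (x, y) c * F y c := by
    rw [sum_comm]
    refine sum_congr rfl fun y _ => ?_
    rw [sum_comm]
    refine sum_congr rfl fun c _ => ?_
    unfold p5
    simp only [sum_mul]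
    rw [sum_comm]
  rw [e1, Fintype.sum_prod_type_right]
  refine sum_congr rfl fun y _ => ?_
  rw [sum_comm]
  refine sum_congr rfl fun x _ => sum_congr rfl fun c _ => ?_
  rw [qq_stat hW]

theorem p5_ends (W : X → X → ℝ) (a c : X × X) :
    ∑ y, p5 W a y c = rho W a * kp (qq W) 1 a c := by
  unfold p5 kp
  rw [mul_sum, Fintype.sum_prod_type_right]
  refine sum_congr rfl fun y _ => sum_congr rfl fun x _ => ?_
  simp only [kp]
  ring

theorem p5_eq (hW : ∀ x y, 0 < W x y) (hs : ∀ x y, W x y = W y x) (a : X × X) (y : X)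
    (c : X × X) : p5 W a y c =
      W a.1 a.2 * W a.1 y * W c.1 y * W c.1 c.2 * tau W a.2 y c.2 / zc W := by
  unfold p5 tau
  rw [mul_sum, sum_div]
  refine sum_congr rfl fun x _ => ?_
  rw [rho_qq hW]
  unfold qq ww
  simp only
  rw [rr_swap hs x y, hs a.2 x, hs y x, hs c.2 x]
  have e1 := (hW x y).ne'
  have e2 := (rr_pos hW (x, y)).ne'
  have e3 := (zc_pos hW).ne'
  field_simp

/-- mean of the logarithm of the number of common neighbours -/
noncomputable def ccc (W : X → X → ℝ) : ℝ :=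
  ∑ x, ∑ x', cod W x x' ^ 2 / zc W * Real.log (cod W x x')

/-- mean of the logarithm of `tau` -/
noncomputable def ttt (W : X → X → ℝ) : ℝ :=
  ∑ x0, ∑ x1, ∑ x2, cod W x0 x1 * cod W x1 x2 * tau W x0 x1 x2 / zc W *
    Real.log (tau W x0 x1 x2)

theorem qq_avg1 (hW : ∀ x y, 0 < W x y) (F : X × X → ℝ) :
    ∑ a, ∑ b, rho W a * qq W a b * F (a.1, b.2) = ∑ a, rho W a * F a := by
  have e1 := ww_avg1 (W := W) F
  rw [rho_avg hW] at e1
  have hz := zc_pos hW
  have e2 : ∑ a, ∑ b, ww W a b * F (a.1, b.2) =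
      zc W * ∑ a, ∑ b, rho W a * qq W a b * F (a.1, b.2) := by
    rw [mul_sum]
    refine sum_congr rfl fun a _ => ?_
    rw [mul_sum]
    refine sum_congr rfl fun b _ => ?_
    rw [rho_qq hW]
    field_simp
  rw [e2] at e1
  exact mul_left_cancel₀ hz.ne' e1

theorem qq_avg2 (hW : ∀ x y, 0 < W x y) (F : X × X → ℝ) :
    ∑ a, ∑ b, rho W a * qq W a b * F (b.1, a.2) = ∑ a, rho W a * F a := by
  have e1 := ww_avg2 (W := W) F
  rw [rho_avg hW] at e1
  have hz := zc_pos hW
  have e2 : ∑ a, ∑ b, ww W a b * F (b.1, a.2) =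
      zc W * ∑ a, ∑ b, rho W a * qq W a b * F (b.1, a.2) := by
    rw [mul_sum]
    refine sum_congr rfl fun a _ => ?_
    rw [mul_sum]
    refine sum_congr rfl fun b _ => ?_
    rw [rho_qq hW]
    field_simp
  rw [e2] at e1
  exact mul_left_cancel₀ hz.ne' e1

/-- means of functions of two opposite vertices -/
theorem qq_avgx (hW : ∀ x y, 0 < W x y) (F : X → X → ℝ) :
    ∑ a, ∑ b, rho W a * qq W a b * F a.1 b.1 = ∑ x, ∑ x', cod W x x' ^ 2 / zc W * F x x' := by
  simp only [rho_qq hW]
  rw [prod4]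
  refine sum_congr rfl fun x _ => sum_congr rfl fun x' _ => ?_
  simp only
  have e1 : ∑ y, ∑ y', ww W (x, y) (x', y') = cod W x x' ^ 2 := by
    unfold cod ww
    rw [sq, sum_mul_sum]
    exact sum_congr rfl fun y _ => sum_congr rfl fun y' _ => by ring
  calc ∑ y, ∑ y', ww W (x, y) (x', y') / zc W * F x x' =
        (∑ y, ∑ y', ww W (x, y) (x', y')) / zc W * F x x' := by
        rw [sum_div, sum_mul]
        refine sum_congr rfl fun y _ => ?_
        rw [sum_div, sum_mul]
    _ = _ := by rw [e1]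

theorem qq_avgy (hW : ∀ x y, 0 < W x y) (hs : ∀ x y, W x y = W y x) (F : X → X → ℝ) :
    ∑ a, ∑ b, rho W a * qq W a b * F a.2 b.2 = ∑ x, ∑ x', cod W x x' ^ 2 / zc W * F x x' := by
  simp only [rho_qq hW]
  rw [prod4, mid]
  refine sum_congr rfl fun x _ => sum_congr rfl fun x' _ => ?_
  simp only
  have e1 : ∑ y, ∑ y', ww W (y, x) (y', x') = cod W x x' ^ 2 := by
    unfold cod ww
    rw [sq, sum_mul_sum]
    refine sum_congr rfl fun y _ => sum_congr rfl fun y' _ => ?_
    simp only
    rw [hs x y, hs x' y, hs x y', hs x' y']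
    ring
  calc ∑ y, ∑ y', ww W (y, x) (y', x') / zc W * F x x' =
        (∑ y, ∑ y', ww W (y, x) (y', x')) / zc W * F x x' := by
        rw [sum_div, sum_mul]
        refine sum_congr rfl fun y _ => ?_
        rw [sum_div, sum_mul]
    _ = _ := by rw [e1]

end sharp

end Vale.Agent.P050.H125
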