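import Vale.Agent.P050.H125.Sharp2

set_option linter.all false

/-!
Entropies of the law `p5`.
-/

namespace Vale.Agent.P050.H125

open Finset Vale.Agent.P050.H148 Vale.Agent.P050.H180

section sharp

variable {X : Type*} [Fintype X] [Nonempty X] [DecidableEq X] {W : X → X → ℝ}

theorem qq_avg0 (hW : ∀ x y, 0 < W x y) (F : X × X → ℝ) :
    ∑ a, ∑ b, rho W a * qq W a b * F a = ∑ a, rho W a * F a := by
  refine sum_congr rfl fun a _ => ?_
  have e1 := qq_sum hW a
  calc ∑ b, rho W a * qq W a b * F a = rho W a * F a * ∑ b, qq W a b := by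
        rw [mul_sum]; exact sum_congr rfl fun b _ => by ring
    _ = _ := by rw [e1, mul_one]

theorem qq_avg3 (hW : ∀ x y, 0 < W x y) (F : X × X → ℝ) :
    ∑ a, ∑ b, rho W a * qq W a b * F b = ∑ a, rho W a * F a := by
  rw [sum_comm]
  refine sum_congr rfl fun b _ => ?_
  rw [← sum_mul, qq_stat hW]

/-- the law of a vertex -/
noncomputable def mg (W : X → X → ℝ) (x : X) : ℝ := ∑ x', cod W x x' ^ 2 / zc W

theorem mg_pos (hW : ∀ x y, 0 < W x y) (x : X) : 0 < mg W x :=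
  sum_pos (fun x' _ => div_pos (pow_pos (cod_pos hW _ _) 2) (zc_pos hW)) univ_nonempty

theorem rho_mg (hW : ∀ x y, 0 < W x y) (F : X → ℝ) :
    ∑ a : X × X, rho W a * F a.1 = ∑ x, mg W x * F x := by
  have e1 : ∑ a : X × X, ∑ b : X × X, rho W a * qq W a b * F a.1 = ∑ a : X × X, rho W a * F a.1 :=
    qq_avg0 hW (fun a => F a.1)
  have e2 : ∑ a : X × X, ∑ b : X × X, rho W a * qq W a b * F a.1 =
    ∑ x, ∑ x', cod W x x' ^ 2 / zc W * F x := qq_avgx hW (fun x _ => F x)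
  rw [← e1, e2]
  unfold mg
  exact sum_congr rfl fun x _ => by rw [sum_mul]

theorem mg_sum (hW : ∀ x y, 0 < W x y) : ∑ x, mg W x = 1 := by
  have e1 := rho_mg hW (fun _ => 1)
  simp only [mul_one] at e1
  rw [← e1, rho_sum hW]

/-- the law of the first edge, a vertex of the second and a vertex of the third edge -/
noncomputable def p4 (W : X → X → ℝ) (a : X × X) (y x : X) : ℝ := ∑ y', p5 W a y (x, y')

theorem p4_pos (hW : ∀ x y, 0 < W x y) (a : X × X) (y x : X) : 0 < p4 W a y x :=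
  sum_pos (fun y' _ => p5_pos hW _ _ _) univ_nonempty

theorem p4_avg (W : X → X → ℝ) (F : X × X → X → X → ℝ) :
    ∑ a, ∑ y, ∑ x, p4 W a y x * F a y x = ∑ a, ∑ y, ∑ c, p5 W a y c * F a y c.1 := by
  refine sum_congr rfl fun a _ => sum_congr rfl fun y _ => ?_
  rw [Fintype.sum_prod_type]
  unfold p4
  exact sum_congr rfl fun x _ => by rw [sum_mul]

/-- the law of a vertex of the edge at distance two -/
noncomputable def al (W : X → X → ℝ) (a : X × X) (x : X) : ℝ := ∑ y, kp (qq W) 1 a (x, y)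

theorem al_pos (hW : ∀ x y, 0 < W x y) (a : X × X) (x : X) : 0 < al W a x :=
  sum_pos (fun y' _ => kp_pos (qq_pos hW) _ _ _) univ_nonempty

theorem p4_ends (W : X → X → ℝ) (a : X × X) (x : X) : ∑ y, p4 W a y x = rho W a * al W a x := by
  unfold p4 al
  rw [sum_comm, mul_sum]
  exact sum_congr rfl fun y' _ => p5_ends W a (x, y')

/-- conditioning -/
theorem step_b (hW : ∀ x y, 0 < W x y) :
    ∑ a, rho W a * ∑ c, kp (qq W) 1 a c * (Real.log (kp (qq W) 1 a c) -
      Real.log (al W a c.1)) ≤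
    ∑ a, ∑ y, ∑ c, p5 W a y c * (Real.log (p5 W a y c) - Real.log (p4 W a y c.1)) := by
  refine sum_le_sum fun a _ => ?_
  rw [sum_comm, mul_sum]
  refine sum_le_sum fun c _ => ?_
  have e1 := logsum (fun y => p5 W a y c) (fun y => p4 W a y c.1) (fun y => p5_pos hW _ _ _)
    (fun y => p4_pos hW _ _ _)
  rw [p5_ends, p4_ends, Real.log_mul (rho_pos hW a).ne' (kp_pos (qq_pos hW) _ _ _).ne',
    Real.log_mul (rho_pos hW a).ne' (al_pos hW _ _).ne'] at e1
  refine le_trans (le_of_eq ?_) e1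
  ring

theorem log_p5 (hW : ∀ x y, 0 < W x y) (hs : ∀ x y, W x y = W y x) (a : X × X) (y : X)
    (c : X × X) : Real.log (p5 W a y c) =
      Real.log (W a.1 a.2) + Real.log (W a.1 y) + Real.log (W c.1 y) + Real.log (W c.1 c.2) +
        Real.log (tau W a.2 y c.2) - Real.log (zc W) := by
  rw [p5_eq hW hs]
  have h1 := hW a.1 a.2
  have h2 := hW a.1 y
  have h3 := hW c.1 y
  have h4 := hW c.1 c.2
  have h5 := tau_pos hW a.2 y c.2
  rw [Real.log_div (mul_pos (mul_pos (mul_pos (mul_pos h1 h2) h3) h4) h5).ne' (zc_pos hW).ne',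
    Real.log_mul (mul_pos (mul_pos (mul_pos h1 h2) h3) h4).ne' h5.ne',
    Real.log_mul (mul_pos (mul_pos h1 h2) h3).ne' h4.ne',
    Real.log_mul (mul_pos h1 h2).ne' h3.ne', Real.log_mul h1.ne' h2.ne']

theorem p5_tau (hW : ∀ x y, 0 < W x y) (hs : ∀ x y, W x y = W y x) :
    ∑ a, ∑ y, ∑ c, p5 W a y c * Real.log (tau W a.2 y c.2) = ttt W := by
  simp only [p5_eq hW hs]
  rw [Fintype.sum_prod_type_right]
  unfold ttt
  refine sum_congr rfl fun y0 _ => ?_
  rw [sum_comm]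
  refine sum_congr rfl fun y _ => ?_
  simp only [Fintype.sum_prod_type_right (α₁ := X) (α₂ := X)]
  rw [sum_comm]
  refine sum_congr rfl fun y2 _ => ?_
  have e1 : cod W y0 y = ∑ x, W x y0 * W x y := by
    unfold cod; exact sum_congr rfl fun x _ => by rw [hs y0 x, hs y x]
  have e2 : cod W y y2 = ∑ x, W x y * W x y2 := by
    unfold cod; exact sum_congr rfl fun x _ => by rw [hs y x, hs y2 x]
  rw [e1, e2, sum_mul_sum]
  simp only [sum_mul, sum_div]
  refine sum_congr rfl fun x _ => sum_congr rfl fun x2 _ => ?_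
  ring

theorem p5_one (hW : ∀ x y, 0 < W x y) : ∑ a, ∑ y, ∑ c, p5 W a y c = 1 := by
  have e1 := p5_left hW (fun _ _ => 1)
  have e2 := qq_avg0 hW (fun _ => 1)
  simp only [mul_one] at e1 e2
  rw [e1, e2, rho_sum hW]

theorem p5_wa (hW : ∀ x y, 0 < W x y) (F : X × X → ℝ) :
    ∑ a, ∑ y, ∑ c, p5 W a y c * F a = ∑ a, rho W a * F a := by
  rw [p5_left hW (fun a _ => F a), qq_avg0 hW]

theorem p5_wc (hW : ∀ x y, 0 < W x y) (F : X × X → ℝ) :
    ∑ a, ∑ y, ∑ c, p5 W a y c * F c = ∑ a, rho W a * F a := by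
  rw [p5_right hW (fun _ c => F c), qq_avg3 hW]

theorem p5_way (hW : ∀ x y, 0 < W x y) (F : X × X → ℝ) :
    ∑ a, ∑ y, ∑ c, p5 W a y c * F (a.1, y) = ∑ a, rho W a * F a := by
  rw [p5_left hW (fun a y => F (a.1, y)), qq_avg1 hW]

theorem p5_wcy (hW : ∀ x y, 0 < W x y) (F : X × X → ℝ) :
    ∑ a, ∑ y, ∑ c, p5 W a y c * F (c.1, y) = ∑ a, rho W a * F a := by
  rw [p5_right hW (fun y c => F (c.1, y)), qq_avg2 hW]

theorem p5_cod (hW : ∀ x y, 0 < W x y) (hs : ∀ x y, W x y = W y x) :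
    ∑ a, ∑ y, ∑ c, p5 W a y c * Real.log (cod W a.2 y) = ccc W := by
  rw [p5_left hW (fun a y => Real.log (cod W a.2 y)),
    qq_avgy hW hs (fun x x' => Real.log (cod W x x'))]
  rfl

theorem p5_log (hW : ∀ x y, 0 < W x y) (hs : ∀ x y, W x y = W y x) :
    ∑ a, ∑ y, ∑ c, p5 W a y c * Real.log (p5 W a y c) =
      4 * (∑ a, rho W a * Real.log (W a.1 a.2)) + ttt W - Real.log (zc W) := by
  have e1 := p5_wa hW (fun a => Real.log (W a.1 a.2))
  have e2 := p5_wc hW (fun a => Real.log (W a.1 a.2))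
  have e3 := p5_way hW (fun a => Real.log (W a.1 a.2))
  have e4 := p5_wcy hW (fun a => Real.log (W a.1 a.2))
  have e5 := p5_tau hW hs
  have e6 : ∑ a, ∑ y, ∑ c, p5 W a y c * Real.log (zc W) = Real.log (zc W) := by
    simp only [← sum_mul]
    rw [p5_one hW, one_mul]
  simp only [log_p5 hW hs, mul_add, mul_sub, sum_add_distrib, sum_sub_distrib]
  beta_reduce at e1 e2 e3 e4 e5 e6
  simp only at e1 e2 e3 e4 e5 e6
  rw [e1, e2, e3, e4, e5, e6]
  ring

end sharp

end Vale.Agent.P050.H125
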