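import Vale.Agent.P050.H125.Sharp3

set_option linter.all false

/-!
The two lower bounds for the entropy difference.
-/

namespace Vale.Agent.P050.H125

open Finset Vale.Agent.P050.H148 Vale.Agent.P050.H180

section sharp

variable {X : Type*} [Fintype X] [Nonempty X] [DecidableEq X] {W : X → X → ℝ}

/-- the reference weight for `p4` -/
noncomputable def nu (W : X → X → ℝ) (a : X × X) (y x : X) : ℝ :=
  Real.sqrt (mg W a.1) * Real.sqrt (mg W x) * (W a.1 y * W x y / Real.sqrt (zc W)) *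
    (W a.1 a.2 * cod W a.2 y / rr W (a.1, y))

theorem nu_pos (hW : ∀ x y, 0 < W x y) (a : X × X) (y x : X) : 0 < nu W a y x :=
  mul_pos (mul_pos (mul_pos (Real.sqrt_pos.mpr (mg_pos hW _)) (Real.sqrt_pos.mpr (mg_pos hW _)))
    (div_pos (mul_pos (hW _ _) (hW _ _)) (Real.sqrt_pos.mpr (zc_pos hW))))
    (div_pos (mul_pos (hW _ _) (cod_pos hW _ _)) (rr_pos hW _))

theorem rr_row (hs : ∀ x y, W x y = W y x) (x y : X) :
    ∑ y0, W x y0 * cod W y0 y = rr W (x, y) := by
  unfold rr cod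
  simp only [mul_sum]
  rw [sum_comm]
  refine sum_congr rfl fun x' _ => sum_congr rfl fun y' _ => ?_
  rw [hs y' x', hs y x']
  ring

theorem nu_sum (hW : ∀ x y, 0 < W x y) (hs : ∀ x y, W x y = W y x) :
    ∑ a, ∑ y, ∑ x, nu W a y x ≤ 1 := by
  have hz := zc_pos hW
  have e1 : ∑ a, ∑ y, ∑ x, nu W a y x =
      ∑ x0, ∑ x, Real.sqrt (mg W x0) * Real.sqrt (mg W x) * (cod W x0 x / Real.sqrt (zc W)) := by
    rw [Fintype.sum_prod_type]
    refine sum_congr rfl fun x0 _ => ?_
    rw [sum_comm]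
    have e2 : ∀ y x, ∑ y0, nu W (x0, y0) y x =
        Real.sqrt (mg W x0) * Real.sqrt (mg W x) * (W x0 y * W x y / Real.sqrt (zc W)) := by
      intro y x
      unfold nu
      simp only
      rw [← mul_sum, ← sum_div, rr_row hs, div_self (rr_pos hW _).ne', mul_one]
    calc ∑ y, ∑ y0, ∑ x, nu W (x0, y0) y x = ∑ y, ∑ x, Real.sqrt (mg W x0) *
          Real.sqrt (mg W x) * (W x0 y * W x y / Real.sqrt (zc W)) := by
          refine sum_congr rfl fun y _ => ?_
          rw [sum_comm]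
          exact sum_congr rfl fun x _ => e2 y x
      _ = _ := by
          rw [sum_comm]
          refine sum_congr rfl fun x _ => ?_
          rw [← mul_sum, ← sum_div]
          rfl
  have e3 : ∀ x0 x, Real.sqrt (mg W x0) * Real.sqrt (mg W x) *
      (cod W x0 x / Real.sqrt (zc W)) ≤
      1 / 2 * (mg W x0 * mg W x) + 1 / 2 * (cod W x0 x ^ 2 / zc W) := by
    intro x0 x
    have s1 := Real.sq_sqrt (mg_pos hW x0).le
    have s2 := Real.sq_sqrt (mg_pos hW x).le
    have s3 := Real.sq_sqrt hz.le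
    have e4 : (cod W x0 x / Real.sqrt (zc W)) ^ 2 = cod W x0 x ^ 2 / zc W := by
      rw [div_pow, s3]
    have e5 : (Real.sqrt (mg W x0) * Real.sqrt (mg W x)) ^ 2 = mg W x0 * mg W x := by
      rw [mul_pow, s1, s2]
    rw [← e4, ← e5]
    nlinarith [sq_nonneg (Real.sqrt (mg W x0) * Real.sqrt (mg W x) -
      cod W x0 x / Real.sqrt (zc W))]
  rw [e1]
  refine (sum_le_sum fun x0 _ => sum_le_sum fun x _ => e3 x0 x).trans (le_of_eq ?_)
  simp only [sum_add_distrib, ← mul_sum]
  rw [mg_sum hW]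
  have e6 : ∑ x, ∑ x', cod W x x' ^ 2 / zc W = 1 := mg_sum hW
  rw [e6]
  simp only [mul_one]
  rw [mg_sum hW]
  norm_num

theorem log_nu (hW : ∀ x y, 0 < W x y) (a : X × X) (y x : X) : Real.log (nu W a y x) =
    1 / 2 * Real.log (mg W a.1) + 1 / 2 * Real.log (mg W x) + Real.log (W a.1 y) +
      Real.log (W x y) - 1 / 2 * Real.log (zc W) + Real.log (W a.1 a.2) +
      Real.log (cod W a.2 y) - Real.log (rr W (a.1, y)) := by
  unfold nu
  have h1 := Real.sqrt_pos.mpr (mg_pos hW a.1)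
  have h2 := Real.sqrt_pos.mpr (mg_pos hW x)
  have h3 := hW a.1 y
  have h4 := hW x y
  have h5 := Real.sqrt_pos.mpr (zc_pos hW)
  have h6 := hW a.1 a.2
  have h7 := cod_pos hW a.2 y
  have h8 := rr_pos hW (a.1, y)
  rw [Real.log_mul (mul_pos (mul_pos h1 h2) (div_pos (mul_pos h3 h4) h5)).ne'
      (div_pos (mul_pos h6 h7) h8).ne',
    Real.log_mul (mul_pos h1 h2).ne' (div_pos (mul_pos h3 h4) h5).ne',
    Real.log_mul h1.ne' h2.ne', Real.log_div (mul_pos h3 h4).ne' h5.ne',
    Real.log_mul h3.ne' h4.ne', Real.log_div (mul_pos h6 h7).ne' h8.ne',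
    Real.log_mul h6.ne' h7.ne', Real.log_sqrt (mg_pos hW _).le, Real.log_sqrt (mg_pos hW _).le,
    Real.log_sqrt (zc_pos hW).le]
  ring

theorem step_k (hW : ∀ x y, 0 < W x y) (hs : ∀ x y, W x y = W y x) :
    (∑ x, mg W x * Real.log (mg W x)) + 3 * (∑ a, rho W a * Real.log (W a.1 a.2)) -
      1 / 2 * Real.log (zc W) + ccc W - (∑ a, rho W a * Real.log (rr W a)) ≤
    ∑ a, ∑ y, ∑ c, p5 W a y c * Real.log (p4 W a y c.1) := by
  have e1 := logsum (fun i : (X × X) × X × X => p4 W i.1 i.2.1 i.2.2)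
    (fun i => nu W i.1 i.2.1 i.2.2) (fun i => p4_pos hW _ _ _) (fun i => nu_pos hW _ _ _)
  have e2 : ∀ F : X × X → X → X → ℝ, ∑ i : (X × X) × X × X, F i.1 i.2.1 i.2.2 =
      ∑ a, ∑ y, ∑ x, F a y x := by
    intro F
    rw [Fintype.sum_prod_type]
    exact sum_congr rfl fun a _ => by rw [Fintype.sum_prod_type]
  rw [e2 (fun a y x => p4 W a y x), e2 (fun a y x => nu W a y x),
    e2 (fun a y x => p4 W a y x * (Real.log (p4 W a y x) - Real.log (nu W a y x)))] at e1
  have e3 : ∑ a, ∑ y, ∑ x, p4 W a y x = 1 := by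
    have := p4_avg W (fun _ _ _ => 1)
    simp only [mul_one] at this
    rw [this, p5_one hW]
  have e4 : 0 ≤ ∑ a, ∑ y, ∑ x, nu W a y x :=
    sum_nonneg fun a _ => sum_nonneg fun y _ => sum_nonneg fun x _ => (nu_pos hW a y x).le
  have e5 : Real.log (∑ a, ∑ y, ∑ x, nu W a y x) ≤ 0 := Real.log_nonpos e4 (nu_sum hW hs)
  rw [e3, Real.log_one, one_mul, zero_sub] at e1
  rw [p4_avg W (fun a y x => Real.log (p4 W a y x) - Real.log (nu W a y x))] at e1
  simp only [log_nu hW, mul_sub, mul_add, sum_sub_distrib, sum_add_distrib] at e1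
  have f1 : ∑ a, ∑ y, ∑ c, p5 W a y c * (1 / 2 * Real.log (mg W a.1)) =
      1 / 2 * ∑ x, mg W x * Real.log (mg W x) := by
    rw [p5_wa hW (fun a => 1 / 2 * Real.log (mg W a.1)),
      rho_mg hW (fun x => 1 / 2 * Real.log (mg W x)), mul_sum]
    exact sum_congr rfl fun x _ => by ring
  have f2 : ∑ a, ∑ y, ∑ c, p5 W a y c * (1 / 2 * Real.log (mg W c.1)) =
      1 / 2 * ∑ x, mg W x * Real.log (mg W x) := by
    rw [p5_wc hW (fun a => 1 / 2 * Real.log (mg W a.1)),
      rho_mg hW (fun x => 1 / 2 * Real.log (mg W x)), mul_sum]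
    exact sum_congr rfl fun x _ => by ring
  have f3 : ∑ a, ∑ y, ∑ c, p5 W a y c * Real.log (W a.1 y) =
      ∑ a, rho W a * Real.log (W a.1 a.2) := p5_way hW (fun a => Real.log (W a.1 a.2))
  have f4 : ∑ a, ∑ y, ∑ c, p5 W a y c * Real.log (W c.1 y) =
      ∑ a, rho W a * Real.log (W a.1 a.2) := p5_wcy hW (fun a => Real.log (W a.1 a.2))
  have f5 : ∑ a, ∑ y, ∑ c, p5 W a y c * (1 / 2 * Real.log (zc W)) = 1 / 2 * Real.log (zc W) := by
    simp only [← sum_mul]
    rw [p5_one hW, one_mul]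
  have f6 : ∑ a, ∑ y, ∑ c, p5 W a y c * Real.log (W a.1 a.2) =
      ∑ a, rho W a * Real.log (W a.1 a.2) := p5_wa hW (fun a => Real.log (W a.1 a.2))
  have f7 := p5_cod hW hs
  have f8 : ∑ a, ∑ y, ∑ c, p5 W a y c * Real.log (rr W (a.1, y)) =
      ∑ a, rho W a * Real.log (rr W a) := p5_way hW (fun a => Real.log (rr W a))
  rw [f1, f2, f3, f4, f5, f6, f7, f8] at e1
  linarith

theorem lawB_rho (hW : ∀ x y, 0 < W x y) (c : X × X) :
    lawB W (rho W) c = cod W c.1 c.2 ^ 2 / zc W := by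
  unfold lawB
  have e1 : ∀ y, rho W (c.1, y) * W c.2 y / rr W (c.1, y) = W c.1 y * W c.2 y / zc W := by
    intro y
    unfold rho
    have := (rr_pos hW (c.1, y)).ne'
    have := (zc_pos hW).ne'
    field_simp
  simp only [e1]
  rw [← sum_div]
  unfold cod
  ring

theorem lawB_mean (hW : ∀ x y, 0 < W x y) (M : ℕ) (c : X × X) :
    ∑ e, rho W e * lawB W (kp (qq W) M e) c = cod W c.1 c.2 ^ 2 / zc W := by
  rw [← lawB_mix, ← lawB_rho hW]
  congr 1
  funext a
  exact kp_stat (qq_stat hW) M a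

theorem kp_mean (hW : ∀ x y, 0 < W x y) (M : ℕ) (F : X × X → ℝ) :
    ∑ e, rho W e * ∑ a, kp (qq W) M e a * F a = ∑ a, rho W a * F a := by
  simp only [mul_sum]
  rw [sum_comm]
  refine sum_congr rfl fun a _ => ?_
  rw [← kp_stat (qq_stat hW) M a, sum_mul]
  exact sum_congr rfl fun e _ => by ring

/-- the Gibbs step -/
theorem step_d (hW : ∀ x y, 0 < W x y) :
    (∑ e, rho W e * ∑ a, kp (qq W) 1 e a * Real.log (al W e a.1)) + 2 * ccc W -
      Real.log (zc W) - (∑ x, mg W x * Real.log (mg W x)) ≤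
    ∑ e, rho W e * ∑ c, lawB W (kp (qq W) 1 e) c * Real.log (lawB W (kp (qq W) 1 e) c) := by
  have hz := zc_pos hW
  have h1 : ∀ e, (∑ a, kp (qq W) 1 e a * Real.log (al W e a.1)) +
      ∑ c, lawB W (kp (qq W) 1 e) c * (2 * Real.log (cod W c.1 c.2) - Real.log (zc W) -
        Real.log (mg W c.1)) ≤
      ∑ c, lawB W (kp (qq W) 1 e) c * Real.log (lawB W (kp (qq W) 1 e) c) := by
    intro e
    have hq : ∀ a, 0 < kp (qq W) 1 e a := fun a => kp_pos (qq_pos hW) 1 e a
    have e1 := logsum (fun c : X × X => lawB W (kp (qq W) 1 e) c)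
      (fun c => al W e c.1 * (cod W c.1 c.2 ^ 2 / zc W) / mg W c.1)
      (fun c => lawB_pos hW hq c)
      (fun c => div_pos (mul_pos (al_pos hW _ _) (div_pos (pow_pos (cod_pos hW _ _) 2) hz))
        (mg_pos hW _))
    have e2 : ∑ c : X × X, al W e c.1 * (cod W c.1 c.2 ^ 2 / zc W) / mg W c.1 = 1 := by
      rw [Fintype.sum_prod_type]
      have e3 : ∀ x, ∑ x', al W e x * (cod W x x' ^ 2 / zc W) / mg W x = al W e x := by
        intro x
        rw [← sum_div, ← mul_sum]
        exact mul_div_cancel_right₀ _ (mg_pos hW x).ne'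
      simp only [e3]
      have e4 := kp_sum (qq_sum hW) 1 e
      rw [Fintype.sum_prod_type] at e4
      exact e4
    rw [lawB_sum hW, kp_sum (qq_sum hW), e2, Real.log_one, one_mul, sub_self] at e1
    have e5 : ∀ c : X × X, Real.log (al W e c.1 * (cod W c.1 c.2 ^ 2 / zc W) / mg W c.1) =
        Real.log (al W e c.1) + (2 * Real.log (cod W c.1 c.2) - Real.log (zc W) -
          Real.log (mg W c.1)) := by
      intro c
      rw [Real.log_div (mul_pos (al_pos hW _ _) (div_pos (pow_pos (cod_pos hW _ _) 2) hz)).ne'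
        (mg_pos hW _).ne', Real.log_mul (al_pos hW _ _).ne'
        (div_pos (pow_pos (cod_pos hW _ _) 2) hz).ne',
        Real.log_div (pow_pos (cod_pos hW _ _) 2).ne' hz.ne', Real.log_pow]
      push_cast; ring
    simp only [e5] at e1
    rw [← lawB_fst hW (kp (qq W) 1 e) (fun x => Real.log (al W e x)), ← sum_add_distrib]
    simp only [mul_sub, mul_add, sum_sub_distrib, sum_add_distrib] at e1 ⊢
    linarith
  have h2 := sum_le_sum fun e (_ : e ∈ univ) => mul_le_mul_of_nonneg_left (h1 e) (rho_pos hW e).le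
  refine le_trans (le_of_eq ?_) h2
  simp only [mul_add, sum_add_distrib]
  have h3 : ∑ e, rho W e * ∑ c, lawB W (kp (qq W) 1 e) c * (2 * Real.log (cod W c.1 c.2) -
      Real.log (zc W) - Real.log (mg W c.1)) = ∑ x, ∑ x', cod W x x' ^ 2 / zc W *
        (2 * Real.log (cod W x x') - Real.log (zc W) - Real.log (mg W x)) := by
    calc ∑ e, rho W e * ∑ c, lawB W (kp (qq W) 1 e) c * (2 * Real.log (cod W c.1 c.2) -
          Real.log (zc W) - Real.log (mg W c.1)) =
          ∑ c, (∑ e, rho W e * lawB W (kp (qq W) 1 e) c) * (2 * Real.log (cod W c.1 c.2) -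
          Real.log (zc W) - Real.log (mg W c.1)) := by
          simp only [mul_sum, sum_mul]
          rw [sum_comm]
          exact sum_congr rfl fun c _ => sum_congr rfl fun e _ => by ring
      _ = _ := by
          rw [Fintype.sum_prod_type]
          exact sum_congr rfl fun x _ => sum_congr rfl fun x' _ => by rw [lawB_mean hW]
  rw [h3]
  have h4 : ∑ x, ∑ x', cod W x x' ^ 2 / zc W *
      (2 * Real.log (cod W x x') - Real.log (zc W) - Real.log (mg W x)) =
      2 * ccc W - Real.log (zc W) - ∑ x, mg W x * Real.log (mg W x) := by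
    have f1 : ∑ x, ∑ x', cod W x x' ^ 2 / zc W * (2 * Real.log (cod W x x')) = 2 * ccc W := by
      unfold ccc
      rw [mul_sum]
      refine sum_congr rfl fun x _ => ?_
      rw [mul_sum]
      exact sum_congr rfl fun x' _ => by ring
    have f2 : ∑ x, ∑ x', cod W x x' ^ 2 / zc W * Real.log (zc W) = Real.log (zc W) := by
      simp only [← sum_mul]
      have : ∑ x, ∑ x', cod W x x' ^ 2 / zc W = 1 := mg_sum hW
      rw [this, one_mul]
    have f3 : ∑ x, ∑ x', cod W x x' ^ 2 / zc W * Real.log (mg W x) =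
        ∑ x, mg W x * Real.log (mg W x) := by
      simp only [← sum_mul]
      rfl
    simp only [mul_sub, sum_sub_distrib]
    rw [f1, f2, f3]
  rw [h4]
  ring

end sharp

end Vale.Agent.P050.H125
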