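import Vale.Agent.P050.H125.Sharp4

set_option linter.all false

/-!
The lower bound for the mean entropy difference.
-/

namespace Vale.Agent.P050.H125

open Finset Vale.Agent.P050.H148 Vale.Agent.P050.H180

section sharp

variable {X : Type*} [Fintype X] [Nonempty X] [DecidableEq X] {W : X → X → ℝ}

/-- the first lower bound -/
theorem avD_one (hW : ∀ x y, 0 < W x y) (hs : ∀ x y, W x y = W y x) :
    -(1 / 2 * Real.log (zc W)) - (∑ a, rho W a * Real.log (W a.1 a.2)) + 3 * ccc W -
      (∑ a, rho W a * Real.log (rr W a)) - ttt W ≤ avD W 1 := by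
  have h1 := step_b hW
  have h2 := step_k hW hs
  have h3 := step_d hW
  have h4 := p5_log hW hs
  have e1 : ∑ a, ∑ y, ∑ c, p5 W a y c * (Real.log (p5 W a y c) - Real.log (p4 W a y c.1)) =
      ∑ a, ∑ y, ∑ c, p5 W a y c * Real.log (p5 W a y c) -
      ∑ a, ∑ y, ∑ c, p5 W a y c * Real.log (p4 W a y c.1) := by
    simp only [mul_sub, sum_sub_distrib]
  have e2 : ∑ a, rho W a * ∑ c, kp (qq W) 1 a c * (Real.log (kp (qq W) 1 a c) -
      Real.log (al W a c.1)) = ∑ a, rho W a * (∑ c, kp (qq W) 1 a c *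
        Real.log (kp (qq W) 1 a c)) - ∑ a, rho W a * (∑ c, kp (qq W) 1 a c *
        Real.log (al W a c.1)) := by
    simp only [mul_sub, sum_sub_distrib]
  have e3 : avD W 1 = ∑ e, rho W e * (∑ c, lawB W (kp (qq W) 1 e) c *
      Real.log (lawB W (kp (qq W) 1 e) c)) - ∑ a, rho W a * (∑ c, kp (qq W) 1 a c *
        Real.log (kp (qq W) 1 a c)) := by
    unfold avD Dq
    simp only [mul_sub, sum_sub_distrib]
  rw [e1, e2, h4] at h1
  rw [e3]
  linarith

/-- the second lower bound -/
theorem avD_zero (hW : ∀ x y, 0 < W x y) :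
    avD W 0 = ccc W - 2 * (∑ a, rho W a * Real.log (W a.1 a.2)) + ttt W := by
  have hz := zc_pos hW
  have hlaw : ∀ e c, lawB W (kp (qq W) 0 e) c =
      W c.1 e.2 * cod W c.1 c.2 / rr W e * tau W e.1 c.1 c.2 := by
    intro e c
    unfold lawB tau
    rw [mul_sum, mul_sum]
    refine sum_congr rfl fun y _ => ?_
    simp only [kp]
    unfold qq ww
    simp only
    have e1 := (hW e.1 e.2).ne'
    have e2 := (rr_pos hW e).ne'
    have e3 := (rr_pos hW (c.1, y)).ne'
    field_simp
  have hlog : ∀ e c, Real.log (lawB W (kp (qq W) 0 e) c) = Real.log (W c.1 e.2) +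
      Real.log (cod W c.1 c.2) - Real.log (rr W e) + Real.log (tau W e.1 c.1 c.2) := by
    intro e c
    rw [hlaw]
    have h1 := hW c.1 e.2
    have h2 := cod_pos hW c.1 c.2
    have h3 := rr_pos hW e
    have h4 := tau_pos hW e.1 c.1 c.2
    rw [Real.log_mul (div_pos (mul_pos h1 h2) h3).ne' h4.ne',
      Real.log_div (mul_pos h1 h2).ne' h3.ne', Real.log_mul h1.ne' h2.ne']
  have f1 : ∑ e, rho W e * ∑ c, lawB W (kp (qq W) 0 e) c * Real.log (W c.1 e.2) =
      ∑ a, rho W a * Real.log (W a.1 a.2) := by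
    have e1 : ∀ e : X × X, ∑ c, lawB W (kp (qq W) 0 e) c * Real.log (W c.1 e.2) =
        ∑ b, qq W e b * Real.log (W b.1 e.2) := fun e =>
      lawB_fst hW (kp (qq W) 0 e) (fun x => Real.log (W x e.2))
    simp only [e1]
    rw [← qq_avg2 hW (fun a => Real.log (W a.1 a.2))]
    refine sum_congr rfl fun e _ => ?_
    rw [mul_sum]
    exact sum_congr rfl fun b _ => by ring
  have f2 : ∑ e, rho W e * ∑ c, lawB W (kp (qq W) 0 e) c * Real.log (cod W c.1 c.2) = ccc W := by
    calc ∑ e, rho W e * ∑ c, lawB W (kp (qq W) 0 e) c * Real.log (cod W c.1 c.2) =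
          ∑ c, (∑ e, rho W e * lawB W (kp (qq W) 0 e) c) * Real.log (cod W c.1 c.2) := by
          simp only [mul_sum, sum_mul]
          rw [sum_comm]
          exact sum_congr rfl fun c _ => sum_congr rfl fun e _ => by ring
      _ = _ := by
          unfold ccc
          rw [Fintype.sum_prod_type]
          exact sum_congr rfl fun x _ => sum_congr rfl fun x' _ => by rw [lawB_mean hW]
  have f3 : ∑ e, rho W e * ∑ c, lawB W (kp (qq W) 0 e) c * Real.log (rr W e) =
      ∑ a, rho W a * Real.log (rr W a) := by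
    refine sum_congr rfl fun e _ => ?_
    rw [← sum_mul, lawB_sum hW, kp_sum (qq_sum hW), one_mul]
  have f4 : ∑ e, rho W e * ∑ c, lawB W (kp (qq W) 0 e) c * Real.log (tau W e.1 c.1 c.2) =
      ttt W := by
    have e1 : ∀ e c, rho W e * (lawB W (kp (qq W) 0 e) c * Real.log (tau W e.1 c.1 c.2)) =
        W e.1 e.2 * W c.1 e.2 * (cod W c.1 c.2 * tau W e.1 c.1 c.2 / zc W *
          Real.log (tau W e.1 c.1 c.2)) := by
      intro e c
      rw [hlaw]
      unfold rho
      have e2 := (rr_pos hW e).ne'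
      field_simp
    simp only [mul_sum, e1]
    rw [Fintype.sum_prod_type]
    unfold ttt
    refine sum_congr rfl fun x0 _ => ?_
    rw [sum_comm, Fintype.sum_prod_type]
    refine sum_congr rfl fun x1 _ => sum_congr rfl fun x2 _ => ?_
    simp only
    rw [← sum_mul]
    have e2 : ∑ y, W x0 y * W x1 y = cod W x0 x1 := rfl
    rw [e2]
    ring
  have f5 : avD W 0 = ∑ e, rho W e * (∑ c, lawB W (kp (qq W) 0 e) c *
      Real.log (lawB W (kp (qq W) 0 e) c)) - en (qq W) (rho W) 0 := by
    unfold avD Dq en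
    simp only [mul_sub, sum_sub_distrib, mul_sum]
    congr 1
    exact sum_congr rfl fun e _ => sum_congr rfl fun a _ => by ring
  rw [f5, ent_zero hW]
  simp only [hlog, mul_add, mul_sub, sum_add_distrib, sum_sub_distrib]
  rw [f1, f2, f3, f4]
  ring

/-- twice the mean entropy difference -/
theorem two_D (hW : ∀ x y, 0 < W x y) (hs : ∀ x y, W x y = W y x) (M : ℕ) (hM : 1 ≤ M) :
    -(1 / 2 * Real.log (zc W)) - 3 * (∑ a, rho W a * Real.log (W a.1 a.2)) + 4 * ccc W -
      (∑ a, rho W a * Real.log (rr W a)) ≤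
    2 * ∑ e, rho W e * Dq W (kp (qq W) M e) := by
  obtain ⟨m, rfl⟩ : ∃ m, M = m + 1 := ⟨M - 1, by omega⟩
  have h1 := avD_one hW hs
  have h2 := avD_zero hW
  have h3 := avD_mono hW 0
  have h4 := avD_ge hW m
  change _ ≤ 2 * avD W (m + 1)
  rw [h2] at h3
  simp only [zero_add] at h3
  linarith

end sharp

end Vale.Agent.P050.H125
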