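import Vale.Agent.P050.H125.Sharp5
import Vale.Agent.P050.H180.Ent6
import Vale.Agent.P050.H173.Half

set_option linter.all false

/-!
Moebius ladders: the inequality between four-cycles and two copies of the ladder.
-/

namespace Vale.Agent.P050.H125

open Finset Vale.Agent.P050 Vale.Agent.P050.H148

theorem halfLog (X : Type*) [Fintype X] [DecidableEq X] [Nonempty X] (M : ℕ) [NeZero (2 * M + 3)]
    (hM : 1 ≤ M) : H173.HalfLog X M := by
  intro V hV hV1 hs
  refine H180.half_log_of hV hV1 M ?_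
  have h1 := two_D hV hs M hM
  have h2 : ccc V = ∑ c : X × X, H180.cod V c.1 c.2 ^ 2 / H180.zc V *
      Real.log (H180.cod V c.1 c.2) := by
    rw [Fintype.sum_prod_type]
    rfl
  rw [← h2]
  refine le_trans (le_of_eq ?_) h1
  ring

/-- `t(C₄) ^ (2 k + 1) ≤ p ^ (2 k + 2) t(M(k)) ^ 2` for every odd `k ≥ 5` -/
theorem sharp_graph {X : Type*} [Fintype X] [Nonempty X] (G : SimpleGraph X) (k : ℕ) (hk : Odd k)
    (h5 : 5 ≤ k) : homDensity (SimpleGraph.cycleGraph 4) G ^ (2 * k + 1) ≤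
      edgeDensity G ^ (2 * k + 2) * homDensity (moebiusLadder k) G ^ 2 := by
  classical
  obtain ⟨M, rfl⟩ : ∃ M, k = 2 * M + 3 := by
    obtain ⟨m, rfl⟩ := hk
    exact ⟨m - 1, by omega⟩
  have h1 := H173.half_graph G M (halfLog X M (by omega))
  have e1 : 2 * (2 * M + 3) + 1 = 4 * M + 7 := by ring
  have e2 : 2 * (2 * M + 3) + 2 = 4 * M + 8 := by ring
  rw [e1, e2]
  exact h1

/-- `t(M(k)) ≥ p ^ (3 k + 1)` for every odd `k ≥ 5` -/
theorem sharp_near {X : Type*} [Fintype X] [Nonempty X] (G : SimpleGraph X) (k : ℕ) (hk : Odd k)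
    (h5 : 5 ≤ k) : edgeDensity G ^ (3 * k + 1) ≤ homDensity (moebiusLadder k) G := by
  classical
  obtain ⟨M, rfl⟩ : ∃ M, k = 2 * M + 3 := by
    obtain ⟨m, rfl⟩ := hk
    exact ⟨m - 1, by omega⟩
  exact H173.half_near G M (halfLog X M (by omega))

end Vale.Agent.P050.H125
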